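import Vale.Agent.P237.Petty.Cor.Band.C.Chart000Box

/-!
# P237: some rows of the upper band, checked by the kernel
-/

set_option linter.style.longLine false

namespace Vale.Agent.P237.Petty.Cor.Band.C

/-- A piece, with multipliers fitted on the box of `B`. -/
def chart0p2 : Piece :=
  let B : Box := chart0box
  ⟨(2 / 5), (7 / 10), (836661 / 1000000), 1, 0, (297061 / 1000000000),
      (cornersFar B 1 [389292000000, 593092000000, 640732000, 68571600000]),
      (cornersFar B 1 [107638000000, 115449000000, 79341900000, 92062000000]),
      [],
      [],
      [],
      [],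
      [],
      [], 0⟩

def chart0p2_ok : okPiece (okFar chart0box) par ⟨0, 0, 0⟩ false none
    (remPoly ofQ yV eV wV fld fld.atoms) chart0p2 = true := by decide +kernel

/-- A piece, with multipliers fitted on the box of `B`. -/
def chart0p3 : Piece :=
  let B : Box := chart0box
  ⟨(7 / 10), 1, 1, 1, 0, (350823 / 1000000000),
      (cornersFar B 1 [184882000000, 643353000000, 1128010000, 85615700000]),
      (cornersFar B 1 [107534000000, 114788000000, 79283400000, 92310000000]),
      [],
      [],
      [],
      [],
      [],
      [], 0⟩

def chart0p3_ok : okPiece (okFar chart0box) par ⟨0, 0, 0⟩ false none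
    (remPoly ofQ yV eV wV fld fld.atoms) chart0p3 = true := by decide +kernel

end Vale.Agent.P237.Petty.Cor.Band.C
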