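import Vale.Agent.P237.Petty.Cor.Band.C.Chart000Box

/-!
# P237: some rows of the upper band, checked by the kernel
-/

set_option linter.style.longLine false

namespace Vale.Agent.P237.Petty.Cor.Band.C

/-- A piece, with multipliers fitted on the box of `B`. -/
def chart0p4 : Piece :=
  let B : Box := chart0box
  ⟨1, (21 / 20), (10247 / 10000), 1, 0, (85347 / 200000000),
      (cornersFar B 1 [124740000000, 653454000000, 1055750000, 88265100000]),
      (cornersFar B 1 [107646000000, 114674000000, 79277900000, 92333900000]),
      [],
      [],
      [],
      [],
      [],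
      [], 0⟩

def chart0p4_ok : okPiece (okFar chart0box) par ⟨0, 0, 0⟩ false none
    (remPoly ofQ yV eV wV fld fld.atoms) chart0p4 = true := by decide +kernel

/-- A piece, with multipliers fitted on the box of `B`. -/
def chart0p5 : Piece :=
  let B : Box := chart0box
  ⟨(21 / 20), (6 / 5), (21909 / 20000), (561 / 500), (115111 / 1000000), (574337 / 1000000000),
      (cornersFar B 0 [1125650, 1028070, 564872000, 624854000]),
      (cornersFar B 0 [133929000, 129209000, 1347000000000, 4655360000000]),
      [],
      (cornersFar B 1 [0, 0, 10191300000, 9497250000]),
      [],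
      (cornersFar B 1 [159529000, 219920000, 216803000, 516731000]),
      [],
      (cornersFar B 0 [3469980000, 3458350000, 986176000000, 6614860000000]), 0⟩

def chart0p5_ok : okPiece (okFar chart0box) par ⟨0, 0, 0⟩ false none
    (remPoly ofQ yV eV wV fld fld.atoms) chart0p5 = true := by decide +kernel

end Vale.Agent.P237.Petty.Cor.Band.C
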