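import Vale.Agent.P237.Petty.Cor.Band.C.Chart000Box

/-!
# P237: some rows of the upper band, checked by the kernel
-/

set_option linter.style.longLine false

namespace Vale.Agent.P237.Petty.Cor.Band.C

/-- A piece, with multipliers fitted on the box of `B`. -/
def chart0p6 : Piece :=
  let B : Box := chart0box
  ⟨(6 / 5), (3 / 2), (4899 / 4000), (671 / 500), (3677 / 12500), (24003 / 125000000),
      (cornersFar B 0 [2218590, 2042260, 425200000, 461454000]),
      (cornersFar B 0 [198655000, 193561000, 956933000000, 3878120000000]),
      [],
      (cornersFar B 1 [0, 0, 10331300000, 9971310000]),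
      [],
      (cornersFar B 1 [147892000, 188792000, 226510000, 511843000]),
      [],
      (cornersFar B 0 [3712590000, 3710390000, 541222000000, 4137970000000]), 0⟩

theorem chart0p6_ok : okPiece (okFar chart0box) par ⟨0, 0, 0⟩ false none
    (remPoly ofQ yV eV wV fld fld.atoms) chart0p6 = true := by decide +kernel

end Vale.Agent.P237.Petty.Cor.Band.C
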