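import Vale.Agent.P237.Petty.Cor.Band.C.Chart000Box

/-!
# P237: some rows of the upper band, checked by the kernel
-/

set_option linter.style.longLine false

namespace Vale.Agent.P237.Petty.Cor.Band.C

/-- A piece, with multipliers fitted on the box of `B`. -/
def chart0p7 : Piece :=
  let B : Box := chart0box
  ⟨(3 / 2), (11 / 5), (37081 / 25000), (1817 / 1000), (119437 / 200000), (400979 / 5000000000),
      (cornersFar B 0 [2599070, 2481850, 250383000, 262802000]),
      (cornersFar B 0 [176183000, 173661000, 851710000000, 3210920000000]),
      [],
      (cornersFar B 1 [0, 0, 10331500000, 10481800000]),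
      [],
      (cornersFar B 1 [152199000, 176265000, 264356000, 507163000]),
      [],
      (cornersFar B 0 [903947000, 903989000, 252610000000, 1701480000000]), 0⟩

theorem chart0p7_ok : okPiece (okFar chart0box) par ⟨0, 0, 0⟩ false none
    (remPoly ofQ yV eV wV fld fld.atoms) chart0p7 = true := by decide +kernel

end Vale.Agent.P237.Petty.Cor.Band.C
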