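import Vale.Agent.P237.Petty.Cor.Band.C.Chart000Box

/-!
# P237: some rows of the upper band, checked by the kernel
-/

set_option linter.style.longLine false

namespace Vale.Agent.P237.Petty.Cor.Band.C

/-- A piece, with multipliers fitted on the box of `B`. -/
def chart0p8 : Piece :=
  let B : Box := chart0box
  ⟨(11 / 5), 4, 2, (1483 / 500), (108721 / 100000), (67927 / 50000),
      (cornersFar B 0 [18975700, 19019300, 1221380000, 1326130000]),
      (cornersFar B 2 [80147200, 80283700, 16081400000, 23893800000]),
      [],
      (cornersFar B 1 [2545740, 2550100, 508370000, 755809000]),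
      (cornersFar B 1 [609883000, 609258000, 8923580000, 9120730000]),
      (cornersFar B 1 [6071000, 6084640, 91642000, 92113600]),
      (cornersFar B 1 [70625200, 71383400, 99932700, 98248000]),
      (cornersFar B 2 [2213010000, 2210670000, 115261000000, 204048000000]), 0⟩

def chart0p8_ok : okPiece (okFar chart0box) par ⟨0, 0, 0⟩ false none
    (remPoly ofQ yV eV wV fld fld.atoms) chart0p8 = true := by decide +kernel

/-- A piece, with multipliers fitted on the box of `B`. -/
def chart0p9 : Piece :=
  let B : Box := chart0box
  ⟨4, 8, (282843 / 100000), (5657 / 1000), (173289 / 100000), (154551 / 250000),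
      (cornersFar B 0 [16078100, 16085600, 710688000, 716297000]),
      (cornersFar B 2 [86241900, 86273600, 17243900000, 20605000000]),
      [],
      (cornersFar B 1 [2747670, 2748700, 545741000, 652840000]),
      (cornersFar B 1 [1415570000, 1415420000, 9602300000, 9704630000]),
      (cornersFar B 1 [1990510, 1991180, 57808500, 58701800]),
      (cornersFar B 1 [31648800, 31673100, 67957000, 67561100]),
      (cornersFar B 2 [2083030000, 2082620000, 71118600000, 92168200000]), 0⟩

def chart0p9_ok : okPiece (okFar chart0box) par ⟨0, 0, 0⟩ false none
    (remPoly ofQ yV eV wV fld fld.atoms) chart0p9 = true := by decide +kernel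

end Vale.Agent.P237.Petty.Cor.Band.C
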