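import Vale.Agent.P237.Petty.Cor.Band.C.Chart000a
import Vale.Agent.P237.Petty.Cor.Band.C.Chart000b
import Vale.Agent.P237.Petty.Cor.Band.C.Chart000c
import Vale.Agent.P237.Petty.Cor.Band.C.Chart000d
import Vale.Agent.P237.Petty.Cor.Band.C.Chart000d2
import Vale.Agent.P237.Petty.Cor.Band.C.Chart000e
import Vale.Agent.P237.Petty.Cor.Band.C.Chart000f

/-!
# P237: some rows of the upper band, checked by the kernel
-/

set_option linter.style.longLine false

namespace Vale.Agent.P237.Petty.Cor.Band.C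

/-- A row. -/
def chart0 : ChartRow := ⟨chart0box, [chart0p0, chart0p1, chart0p2, chart0p3, chart0p4, chart0p5, chart0p6, chart0p7, chart0p8, chart0p9]⟩

theorem chart0_ok : chart0.ok par fld = true :=
  ChartRow.ok_of (by decide +kernel)
    (List.forall_mem_cons.2 ⟨chart0p0_ok, List.forall_mem_cons.2 ⟨chart0p1_ok, List.forall_mem_cons.2 ⟨chart0p2_ok, List.forall_mem_cons.2 ⟨chart0p3_ok, List.forall_mem_cons.2 ⟨chart0p4_ok, List.forall_mem_cons.2 ⟨chart0p5_ok, List.forall_mem_cons.2 ⟨chart0p6_ok, List.forall_mem_cons.2 ⟨chart0p7_ok, List.forall_mem_cons.2 ⟨chart0p8_ok, List.forall_mem_cons.2 ⟨chart0p9_ok, List.forall_mem_nil _⟩⟩⟩⟩⟩⟩⟩⟩⟩⟩)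
    chart0_big

/-- The rows of this file. -/
def chart000_list : List ChartRow := [chart0]

theorem chart000_list_ok : ∀ R ∈ chart000_list, R.ok par fld = true := by
  simp [chart000_list, chart0_ok]

end Vale.Agent.P237.Petty.Cor.Band.C
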