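import Vale.Agent.P237.Petty.Cor.Band.C.Chart001Box

/-!
# P237: some rows of the upper band, checked by the kernel
-/

set_option linter.style.longLine false

namespace Vale.Agent.P237.Petty.Cor.Band.C

/-- A piece, with multipliers fitted on the box of `B`. -/
def chart1p4 : Piece :=
  let B : Box := ⟨0, (11 / 200), (1 / 8), 1, (9 / 20), (11619 / 10000)⟩
  ⟨1, (21 / 20), (10247 / 10000), 1, 0, (80293 / 200000),
      (cornersFar B 2 [3435550000000, 2775620000000, 3071300000000, 547379000000]),
      (cornersFar B 1 [973372000, 18550800000, 1219280000, 73381900000]),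
      [],
      [],
      [],
      [],
      [],
      (cornersFar B 2 [2698920000000, 17845900000000, 7652930000000, 1641660000000000]), 0⟩

theorem chart1p4_ok : okPiece (okFar chart1box) par ⟨0, 0, 0⟩ false none
    (remPoly ofQ yV eV wV fld fld.atoms) chart1p4 = true := by decide +kernel

end Vale.Agent.P237.Petty.Cor.Band.C
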