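import Vale.Agent.P237.Petty.Cor.Band.C.Chart001Box

/-!
# P237: some rows of the upper band, checked by the kernel
-/

set_option linter.style.longLine false

namespace Vale.Agent.P237.Petty.Cor.Band.C

/-- A piece, with multipliers fitted on the box of `B`. -/
def chart1p6 : Piece :=
  let B : Box := ⟨0, (11 / 200), (1 / 8), 1, (9 / 20), (11619 / 10000)⟩
  ⟨(6 / 5), (3 / 2), (4899 / 4000), (671 / 500), (3677 / 12500), (135249 / 100000000),
      (cornersFar B 2 [793061, 506568, 39697800, 17006600]),
      (cornersFar B 2 [101194000, 79406800, 62456000, 17265300000]),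
      [],
      (cornersFar B 1 [9938260, 3890860, 5084710000, 4590620000]),
      (cornersFar B 1 [123432, 170151, 144592, 55638900]),
      (cornersFar B 1 [165164000, 308326000, 309458000, 520174000]),
      (cornersFar B 1 [41975200, 53849100, 21584100, 515093000]),
      (cornersFar B 2 [102702000, 128217000, 9041030000, 30446800000]), 0⟩

def chart1p6_ok : okPiece (okFar chart1box) par ⟨0, 0, 0⟩ false none
    (remPoly ofQ yV eV wV fld fld.atoms) chart1p6 = true := by decide +kernel

/-- A piece, with multipliers fitted on the box of `B`. -/
def chart1p7 : Piece :=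
  let B : Box := ⟨0, (11 / 200), (1 / 8), 1, (9 / 20), (11619 / 10000)⟩
  ⟨(3 / 2), (11 / 5), (37081 / 25000), (1817 / 1000), (119437 / 200000), (37823 / 10000000),
      (cornersFar B 2 [3626050, 3636260, 11521600, 3466310]),
      (cornersFar B 2 [536527000, 535204000, 6131700000, 106497000]),
      [],
      (cornersFar B 1 [18933200, 18894300, 232674000, 4884710]),
      (cornersFar B 1 [424096000, 425446000, 5198310000, 5287730000]),
      (cornersFar B 1 [150544000, 150404000, 444273000, 85612500]),
      (cornersFar B 1 [399014000, 402833000, 515625000, 554172000]),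
      (cornersFar B 2 [9535320000, 9671160000, 116088000000, 94603600000]), 0⟩

def chart1p7_ok : okPiece (okFar chart1box) par ⟨0, 0, 0⟩ false none
    (remPoly ofQ yV eV wV fld fld.atoms) chart1p7 = true := by decide +kernel

end Vale.Agent.P237.Petty.Cor.Band.C
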