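import Vale.Agent.P237.Petty.Cor.Band.C.Chart002Box

/-!
# P237: some rows of the upper band, checked by the kernel
-/

set_option linter.style.longLine false

namespace Vale.Agent.P237.Petty.Cor.Band.C

/-- A piece, with multipliers fitted on the box of `B`. -/
def chart2p2 : Piece :=
  let B : Box := ⟨0, (11 / 200), (1 / 8), 1, (9 / 20), (11619 / 10000)⟩
  ⟨(2 / 5), (7 / 10), (836661 / 1000000), 1, 0, (387027 / 1000000),
      (cornersFar B 2 [259660000000, 457678000000, 124809000000, 142599000000]),
      (cornersFar B 1 [91732500000, 90815600000, 85118400000, 88204000000]),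
      [],
      [],
      [],
      [],
      [],
      (cornersFar B 2 [3381670000000, 5030390000000, 2881020000000, 10827200000000]), 0⟩

def chart2p2_ok : okPiece (okFar chart2box) par ⟨0, 0, 0⟩ false none
    (remPoly ofQ yV eV wV fld fld.atoms) chart2p2 = true := by decide +kernel

/-- A piece, with multipliers fitted on the box of `B`. -/
def chart2p3 : Piece :=
  let B : Box := ⟨0, (11 / 200), (1 / 8), 1, (9 / 20), (11619 / 10000)⟩
  ⟨(7 / 10), 1, 1, 1, 0, (48733 / 125000),
      (cornersFar B 2 [494588000000, 527598000000, 168641000000, 203553000000]),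
      (cornersFar B 1 [85005100000, 89190800000, 83882900000, 84977700000]),
      [],
      [],
      [],
      [],
      [],
      (cornersFar B 2 [9352580000000, 12366600000000, 8552860000000, 63565700000000]), 0⟩

def chart2p3_ok : okPiece (okFar chart2box) par ⟨0, 0, 0⟩ false none
    (remPoly ofQ yV eV wV fld fld.atoms) chart2p3 = true := by decide +kernel

end Vale.Agent.P237.Petty.Cor.Band.C
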