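import Vale.Agent.P237.Petty.Cor.Band.C.Chart002Box

/-!
# P237: some rows of the upper band, checked by the kernel
-/

set_option linter.style.longLine false

namespace Vale.Agent.P237.Petty.Cor.Band.C

/-- A piece, with multipliers fitted on the box of `B`. -/
def chart2p8 : Piece :=
  let B : Box := ⟨0, (11 / 200), (1 / 8), 1, (9 / 20), (11619 / 10000)⟩
  ⟨(11 / 5), 4, 2, (1483 / 500), (108721 / 100000), (738947 / 100000000),
      (cornersFar B 2 [4367830, 4424350, 5191180, 1822790]),
      (cornersFar B 2 [1939880000, 1876890000, 8397580000, 84068600]),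
      [],
      (cornersFar B 1 [66425400, 64402900, 285760000, 2958980]),
      (cornersFar B 1 [2671810000, 2716870000, 7677340000, 7208470000]),
      (cornersFar B 1 [112436000, 110000000, 288342000, 8909020]),
      (cornersFar B 1 [414434000, 417663000, 520062000, 550263000]),
      (cornersFar B 2 [20072300000, 21014200000, 81064000000, 47035800000]), 0⟩

def chart2p8_ok : okPiece (okFar chart2box) par ⟨0, 0, 0⟩ false none
    (remPoly ofQ yV eV wV fld fld.atoms) chart2p8 = true := by decide +kernel

/-- A piece, with multipliers fitted on the box of `B`. -/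
def chart2p9 : Piece :=
  let B : Box := ⟨0, (11 / 200), (1 / 8), 1, (9 / 20), (11619 / 10000)⟩
  ⟨4, 8, (282843 / 100000), (5657 / 1000), (173289 / 100000), (441189 / 10000000),
      (cornersFar B 2 [3390600, 3398120, 4281610, 2691640]),
      (cornersFar B 2 [1440930000, 1354910000, 7796870000, 242278000]),
      [],
      (cornersFar B 1 [51384800, 48347500, 273052000, 8418740]),
      (cornersFar B 1 [8892070000, 8956330000, 13668200000, 12022600000]),
      (cornersFar B 1 [33755100, 31957300, 141588000, 8330060]),
      (cornersFar B 1 [389226000, 396245000, 498534000, 513934000]),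
      (cornersFar B 2 [16263700000, 16699300000, 50708100000, 24115400000]), 0⟩

def chart2p9_ok : okPiece (okFar chart2box) par ⟨0, 0, 0⟩ false none
    (remPoly ofQ yV eV wV fld fld.atoms) chart2p9 = true := by decide +kernel

end Vale.Agent.P237.Petty.Cor.Band.C
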