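import Vale.Agent.P237.Petty.Cor.Band.C.Chart002a
import Vale.Agent.P237.Petty.Cor.Band.C.Chart002b
import Vale.Agent.P237.Petty.Cor.Band.C.Chart002c
import Vale.Agent.P237.Petty.Cor.Band.C.Chart002d
import Vale.Agent.P237.Petty.Cor.Band.C.Chart002e
import Vale.Agent.P237.Petty.Cor.Band.C.Chart002f

/-!
# P237: some rows of the upper band, checked by the kernel
-/

set_option linter.style.longLine false

namespace Vale.Agent.P237.Petty.Cor.Band.C

/-- A row. -/
def chart2 : ChartRow := ⟨chart2box, [chart2p0, chart2p1, chart2p2, chart2p3, chart2p4, chart2p5, chart2p6, chart2p7, chart2p8, chart2p9]⟩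

theorem chart2_ok : chart2.ok par fld = true :=
  ChartRow.ok_of (by decide +kernel)
    (List.forall_mem_cons.2 ⟨chart2p0_ok, List.forall_mem_cons.2 ⟨chart2p1_ok, List.forall_mem_cons.2 ⟨chart2p2_ok, List.forall_mem_cons.2 ⟨chart2p3_ok, List.forall_mem_cons.2 ⟨chart2p4_ok, List.forall_mem_cons.2 ⟨chart2p5_ok, List.forall_mem_cons.2 ⟨chart2p6_ok, List.forall_mem_cons.2 ⟨chart2p7_ok, List.forall_mem_cons.2 ⟨chart2p8_ok, List.forall_mem_cons.2 ⟨chart2p9_ok, List.forall_mem_nil _⟩⟩⟩⟩⟩⟩⟩⟩⟩⟩)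
    chart2_big

/-- The rows of this file. -/
def chart002_list : List ChartRow := [chart2]

theorem chart002_list_ok : ∀ R ∈ chart002_list, R.ok par fld = true := by
  simp [chart002_list, chart2_ok]

end Vale.Agent.P237.Petty.Cor.Band.C
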