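import Vale.Agent.P237.Petty.Cor.Band.C.Par

/-!
# P237: some rows of the upper band, checked by the kernel
-/

set_option linter.style.longLine false

namespace Vale.Agent.P237.Petty.Cor.Band.C

/-- The box of a row. -/
def chart4box : Box := ⟨0, (11 / 200), (9 / 16), 1, (9 / 20), (11619 / 10000)⟩

/-- A piece, with multipliers fitted on the box of `B`. -/
def chart4p0 : Piece :=
  let B : Box := ⟨0, (11 / 200), (1 / 8), 1, (9 / 20), (11619 / 10000)⟩
  ⟨0, (1 / 5), (223607 / 500000), 1, 0, 0,
      (cornersFar B 2 [1237950000000, 488616000000, 581183000000, 85196700000]),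
      (cornersFar B 1 [64058400000, 87249000000, 71541200000, 88153800000]),
      [],
      [],
      [],
      [],
      [],
      [], 0⟩

def chart4p0_ok : okPiece (okFar chart4box) par ⟨0, 0, 0⟩ false none
    (remPoly ofQ yV eV wV fld fld.atoms) chart4p0 = true := by decide +kernel

/-- A piece, with multipliers fitted on the box of `B`. -/
def chart4p1 : Piece :=
  let B : Box := ⟨0, (11 / 200), (1 / 8), 1, (9 / 20), (11619 / 10000)⟩
  ⟨(1 / 5), (2 / 5), (79057 / 125000), 1, 0, (212693 / 500000),
      (cornersFar B 2 [184713000000, 461674000000, 111860000000, 128403000000]),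
      (cornersFar B 1 [93879300000, 89874900000, 85474400000, 88460600000]),
      [],
      [],
      [],
      [],
      [],
      (cornersFar B 2 [2233790000000, 3911350000000, 1869130000000, 6717290000000]), 0⟩

def chart4p1_ok : okPiece (okFar chart4box) par ⟨0, 0, 0⟩ false none
    (remPoly ofQ yV eV wV fld fld.atoms) chart4p1 = true := by decide +kernel

/-- A piece, with multipliers fitted on the box of `B`. -/
def chart4p2 : Piece :=
  let B : Box := ⟨0, (11 / 200), (1 / 8), 1, (9 / 20), (11619 / 10000)⟩
  ⟨(2 / 5), (7 / 10), (836661 / 1000000), 1, 0, (387027 / 1000000),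
      (cornersFar B 2 [259660000000, 457678000000, 124809000000, 142599000000]),
      (cornersFar B 1 [91732500000, 90815600000, 85118400000, 88204000000]),
      [],
      [],
      [],
      [],
      [],
      (cornersFar B 2 [3381670000000, 5030390000000, 2881020000000, 10827200000000]), 0⟩

def chart4p2_ok : okPiece (okFar chart4box) par ⟨0, 0, 0⟩ false none
    (remPoly ofQ yV eV wV fld fld.atoms) chart4p2 = true := by decide +kernel

/-- A piece, with multipliers fitted on the box of `B`. -/
def chart4p3 : Piece :=
  let B : Box := ⟨0, (11 / 200), (1 / 8), 1, (9 / 20), (11619 / 10000)⟩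
  ⟨(7 / 10), 1, 1, 1, 0, (48733 / 125000),
      (cornersFar B 2 [494588000000, 527598000000, 168641000000, 203553000000]),
      (cornersFar B 1 [85005100000, 89190800000, 83882900000, 84977700000]),
      [],
      [],
      [],
      [],
      [],
      (cornersFar B 2 [9352580000000, 12366600000000, 8552860000000, 63565700000000]), 0⟩

def chart4p3_ok : okPiece (okFar chart4box) par ⟨0, 0, 0⟩ false none
    (remPoly ofQ yV eV wV fld fld.atoms) chart4p3 = true := by decide +kernel

/-- A piece, with multipliers fitted on the box of `B`. -/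
def chart4p4 : Piece :=
  let B : Box := ⟨0, (11 / 200), (1 / 8), 1, (9 / 20), (11619 / 10000)⟩
  ⟨1, (21 / 20), (10247 / 10000), 1, 0, (80293 / 200000),
      (cornersFar B 2 [3435550000000, 2775620000000, 3071300000000, 547379000000]),
      (cornersFar B 1 [973372000, 18550800000, 1219280000, 73381900000]),
      [],
      [],
      [],
      [],
      [],
      (cornersFar B 2 [2698920000000, 17845900000000, 7652930000000, 1641660000000000]), 0⟩

def chart4p4_ok : okPiece (okFar chart4box) par ⟨0, 0, 0⟩ false none
    (remPoly ofQ yV eV wV fld fld.atoms) chart4p4 = true := by decide +kernel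

/-- A piece, with multipliers fitted on the box of `B`. -/
def chart4p5 : Piece :=
  let B : Box := ⟨0, (11 / 200), (1 / 8), 1, (9 / 20), (11619 / 10000)⟩
  ⟨(21 / 20), (6 / 5), (21909 / 20000), (561 / 500), (115111 / 1000000), (82883 / 125000000),
      (cornersFar B 2 [216527, 46114, 52858300, 21182300]),
      (cornersFar B 2 [1815960, 3918940, 220682000, 14798700000]),
      [],
      (cornersFar B 1 [227857, 231951, 5298520000, 4816290000]),
      (cornersFar B 1 [0, 478, 20456, 1875960]),
      (cornersFar B 1 [45009300, 216525000, 33215100, 521585000]),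
      (cornersFar B 1 [535213, 1154290, 22761600, 489287000]),
      (cornersFar B 2 [132024000, 133225000, 5538930000, 18073500000]), 0⟩

def chart4p5_ok : okPiece (okFar chart4box) par ⟨0, 0, 0⟩ false none
    (remPoly ofQ yV eV wV fld fld.atoms) chart4p5 = true := by decide +kernel

/-- A piece, with multipliers fitted on the box of `B`. -/
def chart4p6 : Piece :=
  let B : Box := ⟨0, (11 / 200), (1 / 8), 1, (9 / 20), (11619 / 10000)⟩
  ⟨(6 / 5), (3 / 2), (4899 / 4000), (671 / 500), (3677 / 12500), (135249 / 100000000),
      (cornersFar B 2 [793061, 506568, 39697800, 17006600]),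
      (cornersFar B 2 [101194000, 79406800, 62456000, 17265300000]),
      [],
      (cornersFar B 1 [9938260, 3890860, 5084710000, 4590620000]),
      (cornersFar B 1 [123432, 170151, 144592, 55638900]),
      (cornersFar B 1 [165164000, 308326000, 309458000, 520174000]),
      (cornersFar B 1 [41975200, 53849100, 21584100, 515093000]),
      (cornersFar B 2 [102702000, 128217000, 9041030000, 30446800000]), 0⟩

def chart4p6_ok : okPiece (okFar chart4box) par ⟨0, 0, 0⟩ false none
    (remPoly ofQ yV eV wV fld fld.atoms) chart4p6 = true := by decide +kernel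

/-- A piece, with multipliers fitted on the box of `B`. -/
def chart4p7 : Piece :=
  let B : Box := ⟨0, (11 / 200), (1 / 8), 1, (9 / 20), (11619 / 10000)⟩
  ⟨(3 / 2), (11 / 5), (37081 / 25000), (1817 / 1000), (119437 / 200000), (37823 / 10000000),
      (cornersFar B 2 [3626050, 3636260, 11521600, 3466310]),
      (cornersFar B 2 [536527000, 535204000, 6131700000, 106497000]),
      [],
      (cornersFar B 1 [18933200, 18894300, 232674000, 4884710]),
      (cornersFar B 1 [424096000, 425446000, 5198310000, 5287730000]),
      (cornersFar B 1 [150544000, 150404000, 444273000, 85612500]),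
      (cornersFar B 1 [399014000, 402833000, 515625000, 554172000]),
      (cornersFar B 2 [9535320000, 9671160000, 116088000000, 94603600000]), 0⟩

def chart4p7_ok : okPiece (okFar chart4box) par ⟨0, 0, 0⟩ false none
    (remPoly ofQ yV eV wV fld fld.atoms) chart4p7 = true := by decide +kernel

/-- A piece, with multipliers fitted on the box of `B`. -/
def chart4p8 : Piece :=
  let B : Box := ⟨0, (11 / 200), (1 / 8), 1, (9 / 20), (11619 / 10000)⟩
  ⟨(11 / 5), 4, 2, (1483 / 500), (108721 / 100000), (738947 / 100000000),
      (cornersFar B 2 [4367830, 4424350, 5191180, 1822790]),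
      (cornersFar B 2 [1939880000, 1876890000, 8397580000, 84068600]),
      [],
      (cornersFar B 1 [66425400, 64402900, 285760000, 2958980]),
      (cornersFar B 1 [2671810000, 2716870000, 7677340000, 7208470000]),
      (cornersFar B 1 [112436000, 110000000, 288342000, 8909020]),
      (cornersFar B 1 [414434000, 417663000, 520062000, 550263000]),
      (cornersFar B 2 [20072300000, 21014200000, 81064000000, 47035800000]), 0⟩

def chart4p8_ok : okPiece (okFar chart4box) par ⟨0, 0, 0⟩ false none
    (remPoly ofQ yV eV wV fld fld.atoms) chart4p8 = true := by decide +kernel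

/-- A piece, with multipliers fitted on the box of `B`. -/
def chart4p9 : Piece :=
  let B : Box := ⟨0, (11 / 200), (1 / 8), 1, (9 / 20), (11619 / 10000)⟩
  ⟨4, 8, (282843 / 100000), (5657 / 1000), (173289 / 100000), (441189 / 10000000),
      (cornersFar B 2 [3390600, 3398120, 4281610, 2691640]),
      (cornersFar B 2 [1440930000, 1354910000, 7796870000, 242278000]),
      [],
      (cornersFar B 1 [51384800, 48347500, 273052000, 8418740]),
      (cornersFar B 1 [8892070000, 8956330000, 13668200000, 12022600000]),
      (cornersFar B 1 [33755100, 31957300, 141588000, 8330060]),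
      (cornersFar B 1 [389226000, 396245000, 498534000, 513934000]),
      (cornersFar B 2 [16263700000, 16699300000, 50708100000, 24115400000]), 0⟩

def chart4p9_ok : okPiece (okFar chart4box) par ⟨0, 0, 0⟩ false none
    (remPoly ofQ yV eV wV fld fld.atoms) chart4p9 = true := by decide +kernel

def chart4_big : (bigExprs par (remPoly ofQ yV eV wV fld fld.atoms)).all (okFar chart4box) = true := by decide +kernel

/-- A row. -/
def chart4 : ChartRow := ⟨chart4box, [chart4p0, chart4p1, chart4p2, chart4p3, chart4p4, chart4p5, chart4p6, chart4p7, chart4p8, chart4p9]⟩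

def chart4_ok : chart4.ok par fld = true :=
  ChartRow.ok_of (by decide +kernel)
    (List.forall_mem_cons.2 ⟨chart4p0_ok, List.forall_mem_cons.2 ⟨chart4p1_ok, List.forall_mem_cons.2 ⟨chart4p2_ok, List.forall_mem_cons.2 ⟨chart4p3_ok, List.forall_mem_cons.2 ⟨chart4p4_ok, List.forall_mem_cons.2 ⟨chart4p5_ok, List.forall_mem_cons.2 ⟨chart4p6_ok, List.forall_mem_cons.2 ⟨chart4p7_ok, List.forall_mem_cons.2 ⟨chart4p8_ok, List.forall_mem_cons.2 ⟨chart4p9_ok, List.forall_mem_nil _⟩⟩⟩⟩⟩⟩⟩⟩⟩⟩)
    chart4_big

/-- The rows of this file. -/
def chart004_list : List ChartRow := [chart4]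

theorem chart004_list_ok : ∀ R ∈ chart004_list, R.ok par fld = true := by
  simp [chart004_list, chart4_ok]

end Vale.Agent.P237.Petty.Cor.Band.C
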