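import Vale.Agent.P237.Petty.Cor.Band.C.Par

/-!
# P237: some rows of the upper band, checked by the kernel
-/

set_option linter.style.longLine false

namespace Vale.Agent.P237.Petty.Cor.Band.C

/-- The box of a row. -/
def chart5box : Box := ⟨(11 / 200), (11 / 100), (1 / 8), 1, (9 / 20), (11619 / 10000)⟩

/-- A piece, with multipliers fitted on the box of `B`. -/
def chart5p0 : Piece :=
  let B : Box := chart5box
  ⟨0, (1 / 5), (223607 / 500000), 1, 0, 0,
      (cornersFar B 2 [547578000000, 50091100000, 162007000000, 38658600000]),
      (cornersFar B 1 [72499000000, 88862300000, 72818000000, 78338900000]),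
      [],
      [],
      [],
      [],
      [],
      [], 0⟩

def chart5p0_ok : okPiece (okFar chart5box) par ⟨0, 0, 0⟩ false none
    (remPoly ofQ yV eV wV fld fld.atoms) chart5p0 = true := by decide +kernel

/-- A piece, with multipliers fitted on the box of `B`. -/
def chart5p1 : Piece :=
  let B : Box := chart5box
  ⟨(1 / 5), (2 / 5), (79057 / 125000), 1, 0, (10561 / 12500),
      (cornersFar B 2 [55204900000, 83693500000, 57202000000, 69679400000]),
      (cornersFar B 1 [86977100000, 89798700000, 76276700000, 78665100000]),
      [],
      [],
      [],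
      [],
      [],
      (cornersFar B 2 [1882160000000, 6199310000000, 1499130000000, 7452370000000]), 0⟩

def chart5p1_ok : okPiece (okFar chart5box) par ⟨0, 0, 0⟩ false none
    (remPoly ofQ yV eV wV fld fld.atoms) chart5p1 = true := by decide +kernel

/-- A piece, with multipliers fitted on the box of `B`. -/
def chart5p2 : Piece :=
  let B : Box := chart5box
  ⟨(2 / 5), (7 / 10), (836661 / 1000000), 1, 0, (965311 / 1000000),
      (cornersFar B 2 [66902700000, 101857000000, 71177400000, 94163800000]),
      (cornersFar B 1 [86643100000, 89784300000, 75897000000, 77720300000]),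
      [],
      [],
      [],
      [],
      [],
      (cornersFar B 2 [2907160000000, 9423560000000, 2302890000000, 13667100000000]), 0⟩

def chart5p2_ok : okPiece (okFar chart5box) par ⟨0, 0, 0⟩ false none
    (remPoly ofQ yV eV wV fld fld.atoms) chart5p2 = true := by decide +kernel

/-- A piece, with multipliers fitted on the box of `B`. -/
def chart5p3 : Piece :=
  let B : Box := chart5box
  ⟨(7 / 10), 1, 1, 1, 0, (193511 / 100000),
      (cornersFar B 2 [79716400000, 204561000000, 115812000000, 195881000000]),
      (cornersFar B 1 [86282600000, 85087200000, 74655600000, 73581700000]),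
      [],
      [],
      [],
      [],
      [],
      (cornersFar B 2 [8678460000000, 55879000000000, 6870690000000, 101322000000000]), 0⟩

def chart5p3_ok : okPiece (okFar chart5box) par ⟨0, 0, 0⟩ false none
    (remPoly ofQ yV eV wV fld fld.atoms) chart5p3 = true := by decide +kernel

/-- A piece, with multipliers fitted on the box of `B`. -/
def chart5p4 : Piece :=
  let B : Box := chart5box
  ⟨1, (21 / 20), (10247 / 10000), 1, 0, (282031 / 1000000),
      (cornersFar B 2 [3037750000000, 288848000000, 2111770000000, 204124000000]),
      (cornersFar B 1 [2188320000, 80581000000, 18052100000, 72442100000]),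
      [],
      [],
      [],
      [],
      [],
      (cornersFar B 2 [12283100000000, 1676380000000000, 7421030000000, 3336460000000000]), 0⟩

def chart5p4_ok : okPiece (okFar chart5box) par ⟨0, 0, 0⟩ false none
    (remPoly ofQ yV eV wV fld fld.atoms) chart5p4 = true := by decide +kernel

/-- A piece, with multipliers fitted on the box of `B`. -/
def chart5p5 : Piece :=
  let B : Box := chart5box
  ⟨(21 / 20), (6 / 5), (21909 / 20000), (561 / 500), (115111 / 1000000), (952267 / 10000000),
      (cornersFar B 2 [32671200, 40634100, 42073700, 48077200]),
      (cornersFar B 2 [117181000, 36686200000, 377604000, 92856900000]),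
      [],
      (cornersFar B 1 [5181880000, 3955260000, 9161300000, 6136750000]),
      (cornersFar B 1 [37934, 51569000, 114030, 155851000]),
      (cornersFar B 1 [86674200, 410165000, 136159000, 506908000]),
      (cornersFar B 1 [22387000, 395977000, 48208500, 496716000]),
      (cornersFar B 2 [7678820000, 290639000000, 14052700000, 1092210000000]), 0⟩

def chart5p5_ok : okPiece (okFar chart5box) par ⟨0, 0, 0⟩ false none
    (remPoly ofQ yV eV wV fld fld.atoms) chart5p5 = true := by decide +kernel

/-- A piece, with multipliers fitted on the box of `B`. -/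
def chart5p6 : Piece :=
  let B : Box := chart5box
  ⟨(6 / 5), (3 / 2), (4899 / 4000), (671 / 500), (3677 / 12500), (57189 / 50000000),
      (cornersFar B 2 [16071400, 14523100, 8740890, 15545400]),
      (cornersFar B 2 [2986610000, 17823800000, 51355500, 47999500000]),
      [],
      (cornersFar B 1 [5055890000, 4409660000, 9070270000, 7235780000]),
      (cornersFar B 1 [10408100, 173240000, 99183, 438921000]),
      (cornersFar B 1 [379811000, 405417000, 539381000, 508087000]),
      (cornersFar B 1 [300332000, 396371000, 17078500, 501396000]),
      (cornersFar B 2 [13117100000, 82316700000, 13595500000, 272736000000]), 0⟩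

def chart5p6_ok : okPiece (okFar chart5box) par ⟨0, 0, 0⟩ false none
    (remPoly ofQ yV eV wV fld fld.atoms) chart5p6 = true := by decide +kernel

/-- A piece, with multipliers fitted on the box of `B`. -/
def chart5p7 : Piece :=
  let B : Box := chart5box
  ⟨(3 / 2), (11 / 5), (37081 / 25000), (1817 / 1000), (119437 / 200000), (228147 / 5000000),
      (cornersFar B 2 [12464200, 12732300, 8124140, 13365600]),
      (cornersFar B 2 [8515830000, 9296130000, 308127000, 2544830000]),
      [],
      (cornersFar B 1 [317227000, 357238000, 18398600, 143226000]),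
      (cornersFar B 1 [5131300000, 5016290000, 9091210000, 8902490000]),
      (cornersFar B 1 [368501000, 370285000, 277821000, 455001000]),
      (cornersFar B 1 [405072000, 405176000, 523694000, 509272000]),
      (cornersFar B 2 [118869000000, 125857000000, 156991000000, 156210000000]), 0⟩

def chart5p7_ok : okPiece (okFar chart5box) par ⟨0, 0, 0⟩ false none
    (remPoly ofQ yV eV wV fld fld.atoms) chart5p7 = true := by decide +kernel

/-- A piece, with multipliers fitted on the box of `B`. -/
def chart5p8 : Piece :=
  let B : Box := chart5box
  ⟨(11 / 5), 4, 2, (1483 / 500), (108721 / 100000), (677 / 3125),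
      (cornersFar B 2 [14729000, 15438000, 18503100, 7940570]),
      (cornersFar B 2 [10124900000, 9269750000, 15301100000, 394584000]),
      [],
      (cornersFar B 1 [341224000, 317221000, 519597000, 13881000]),
      (cornersFar B 1 [7579440000, 7664610000, 10838600000, 10938000000]),
      (cornersFar B 1 [264532000, 259708000, 361612000, 42356300]),
      (cornersFar B 1 [408865000, 412045000, 510730000, 544452000]),
      (cornersFar B 2 [81209600000, 79988700000, 113077000000, 71431900000]), 0⟩

def chart5p8_ok : okPiece (okFar chart5box) par ⟨0, 0, 0⟩ false none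
    (remPoly ofQ yV eV wV fld fld.atoms) chart5p8 = true := by decide +kernel

/-- A piece, with multipliers fitted on the box of `B`. -/
def chart5p9 : Piece :=
  let B : Box := chart5box
  ⟨4, 8, (282843 / 100000), (5657 / 1000), (173289 / 100000), (393333 / 10000000),
      (cornersFar B 2 [3023070, 3066080, 3075960, 1619770]),
      (cornersFar B 2 [13252400000, 11679500000, 18171900000, 125778000]),
      [],
      (cornersFar B 1 [451246000, 401953000, 621486000, 4396020]),
      (cornersFar B 1 [13395200000, 13662900000, 16584700000, 15735800000]),
      (cornersFar B 1 [181407000, 171406000, 244758000, 4282640]),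
      (cornersFar B 1 [403160000, 406222000, 504076000, 530770000]),
      (cornersFar B 2 [63729300000, 61036000000, 78815900000, 42456000000]), 0⟩

def chart5p9_ok : okPiece (okFar chart5box) par ⟨0, 0, 0⟩ false none
    (remPoly ofQ yV eV wV fld fld.atoms) chart5p9 = true := by decide +kernel

def chart5_big : (bigExprs par (remPoly ofQ yV eV wV fld fld.atoms)).all (okFar chart5box) = true := by decide +kernel

/-- A row. -/
def chart5 : ChartRow := ⟨chart5box, [chart5p0, chart5p1, chart5p2, chart5p3, chart5p4, chart5p5, chart5p6, chart5p7, chart5p8, chart5p9]⟩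

def chart5_ok : chart5.ok par fld = true :=
  ChartRow.ok_of (by decide +kernel)
    (List.forall_mem_cons.2 ⟨chart5p0_ok, List.forall_mem_cons.2 ⟨chart5p1_ok, List.forall_mem_cons.2 ⟨chart5p2_ok, List.forall_mem_cons.2 ⟨chart5p3_ok, List.forall_mem_cons.2 ⟨chart5p4_ok, List.forall_mem_cons.2 ⟨chart5p5_ok, List.forall_mem_cons.2 ⟨chart5p6_ok, List.forall_mem_cons.2 ⟨chart5p7_ok, List.forall_mem_cons.2 ⟨chart5p8_ok, List.forall_mem_cons.2 ⟨chart5p9_ok, List.forall_mem_nil _⟩⟩⟩⟩⟩⟩⟩⟩⟩⟩)
    chart5_big

/-- The rows of this file. -/
def chart005_list : List ChartRow := [chart5]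

theorem chart005_list_ok : ∀ R ∈ chart005_list, R.ok par fld = true := by
  simp [chart005_list, chart5_ok]

end Vale.Agent.P237.Petty.Cor.Band.C
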