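import Vale.Agent.P237.Petty.Cor.Band.C.Chart007Box

/-!
# P237: some rows of the upper band, checked by the kernel
-/

set_option linter.style.longLine false

namespace Vale.Agent.P237.Petty.Cor.Band.C

/-- A piece, with multipliers fitted on the box of `B`. -/
def chart7p3 : Piece :=
  let B : Box := chart7box
  ⟨(7 / 10), 1, 1, 1, 0, (112501 / 250000000),
      (cornersFar B 1 [2014230000000, 269773000000, 5832280000, 23818700000]),
      (cornersFar B 1 [36413400000, 89499300000, 49815300000, 51731200000]),
      [],
      [],
      [],
      [],
      [],
      [], 0⟩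

theorem chart7p3_ok : okPiece (okFar chart7box) par ⟨0, 0, 0⟩ false none
    (remPoly ofQ yV eV wV fld fld.atoms) chart7p3 = true := by decide +kernel

end Vale.Agent.P237.Petty.Cor.Band.C
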