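import Vale.Agent.P237.Petty.Cor.Band.C.Chart007Box

/-!
# P237: some rows of the upper band, checked by the kernel
-/

set_option linter.style.longLine false

namespace Vale.Agent.P237.Petty.Cor.Band.C

/-- A piece, with multipliers fitted on the box of `B`. -/
def chart7p4 : Piece :=
  let B : Box := chart7box
  ⟨1, (21 / 20), (10247 / 10000), 1, 0, (313429 / 500000000),
      (cornersFar B 1 [1986480000000, 269545000000, 1594920000, 22603500000]),
      (cornersFar B 1 [36028500000, 89570700000, 49993200000, 50761700000]),
      [],
      [],
      [],
      [],
      [],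
      [], 0⟩

theorem chart7p4_ok : okPiece (okFar chart7box) par ⟨0, 0, 0⟩ false none
    (remPoly ofQ yV eV wV fld fld.atoms) chart7p4 = true := by decide +kernel

end Vale.Agent.P237.Petty.Cor.Band.C
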