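import Vale.Agent.P237.Petty.Cor.Band.C.Chart007Box

/-!
# P237: some rows of the upper band, checked by the kernel
-/

set_option linter.style.longLine false

namespace Vale.Agent.P237.Petty.Cor.Band.C

/-- A piece, with multipliers fitted on the box of `B`. -/
def chart7p5 : Piece :=
  let B : Box := chart7box
  ⟨(21 / 20), (6 / 5), (21909 / 20000), (561 / 500), (115111 / 1000000), (7571 / 5000000),
      (cornersFar B 0 [52626900, 9225620, 3707160, 333452000]),
      (cornersFar B 0 [20739800, 379062000, 1357070000, 71461300000]),
      [],
      (cornersFar B 1 [0, 0, 17097100000, 15399600000]),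
      [],
      (cornersFar B 1 [1764640, 303040000, 1713970, 461905000]),
      [],
      (cornersFar B 0 [2832740000, 3036070000, 53223400000, 672440000000]), 0⟩

theorem chart7p5_ok : okPiece (okFar chart7box) par ⟨0, 0, 0⟩ false none
    (remPoly ofQ yV eV wV fld fld.atoms) chart7p5 = true := by decide +kernel

end Vale.Agent.P237.Petty.Cor.Band.C
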