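import Vale.Agent.P237.Petty.Cor.Band.C.Chart007Box

/-!
# P237: some rows of the upper band, checked by the kernel
-/

set_option linter.style.longLine false

namespace Vale.Agent.P237.Petty.Cor.Band.C

/-- A piece, with multipliers fitted on the box of `B`. -/
def chart7p6 : Piece :=
  let B : Box := chart7box
  ⟨(6 / 5), (3 / 2), (4899 / 4000), (671 / 500), (3677 / 12500), (33589 / 1250000),
      (cornersFar B 0 [156006000, 32128700, 20707100, 346542000]),
      (cornersFar B 0 [821548000, 1065710000, 2759660000, 53415100000]),
      [],
      (cornersFar B 1 [0, 0, 16159400000, 14977600000]),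
      [],
      (cornersFar B 1 [15080000, 308055000, 10264100, 459663000]),
      [],
      (cornersFar B 0 [3724020000, 4364750000, 31047100000, 394935000000]), 0⟩

def chart7p6_ok : okPiece (okFar chart7box) par ⟨0, 0, 0⟩ false none
    (remPoly ofQ yV eV wV fld fld.atoms) chart7p6 = true := by decide +kernel

/-- A piece, with multipliers fitted on the box of `B`. -/
def chart7p7 : Piece :=
  let B : Box := chart7box
  ⟨(3 / 2), (11 / 5), (37081 / 25000), (1817 / 1000), (119437 / 200000), (9769 / 5000000),
      (cornersFar B 0 [290458000, 40669400, 19441400, 92323200]),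
      (cornersFar B 0 [322938000, 1609030000, 1010160000, 51230800000]),
      [],
      (cornersFar B 1 [0, 0, 15724300000, 15317300000]),
      [],
      (cornersFar B 1 [14471500, 284094000, 12412100, 382044000]),
      [],
      (cornersFar B 0 [1910570000, 4056020000, 18429300000, 159360000000]), 0⟩

def chart7p7_ok : okPiece (okFar chart7box) par ⟨0, 0, 0⟩ false none
    (remPoly ofQ yV eV wV fld fld.atoms) chart7p7 = true := by decide +kernel

end Vale.Agent.P237.Petty.Cor.Band.C
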