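import Vale.Agent.P237.Petty.Cor.Band.C.Chart007Box

/-!
# P237: some rows of the upper band, checked by the kernel
-/

set_option linter.style.longLine false

namespace Vale.Agent.P237.Petty.Cor.Band.C

/-- A piece, with multipliers fitted on the box of `B`. -/
def chart7p8 : Piece :=
  let B : Box := chart7box
  ⟨(11 / 5), 4, 2, (1483 / 500), (108721 / 100000), (269111 / 1000000),
      (cornersFar B 0 [71024000, 69436900, 278621000, 25405800]),
      (cornersFar B 2 [2074170000, 2034660000, 18478300000, 817284000]),
      [],
      (cornersFar B 1 [71118800, 69813200, 641012000, 28910200]),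
      (cornersFar B 1 [2728210000, 2737080000, 14139600000, 14524400000]),
      (cornersFar B 1 [117013000, 115383000, 385399000, 96375900]),
      (cornersFar B 1 [393715000, 399652000, 489558000, 527440000]),
      (cornersFar B 2 [20389700000, 20789600000, 144890000000, 91046400000]), 0⟩

def chart7p8_ok : okPiece (okFar chart7box) par ⟨0, 0, 0⟩ false none
    (remPoly ofQ yV eV wV fld fld.atoms) chart7p8 = true := by decide +kernel

/-- A piece, with multipliers fitted on the box of `B`. -/
def chart7p9 : Piece :=
  let B : Box := chart7box
  ⟨4, 8, (282843 / 100000), (5657 / 1000), (173289 / 100000), (436369 / 5000000),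
      (cornersFar B 0 [117537000, 117161000, 108854000, 5680560]),
      (cornersFar B 2 [8280530000, 8046210000, 26093500000, 235242000]),
      [],
      (cornersFar B 1 [276714000, 268853000, 897755000, 8136110]),
      (cornersFar B 1 [8600560000, 8671540000, 19841900000, 19004400000]),
      (cornersFar B 1 [136768000, 133970000, 296552000, 8912080]),
      (cornersFar B 1 [398461000, 400775000, 498026000, 532879000]),
      (cornersFar B 2 [39307200000, 41212200000, 109258000000, 54633600000]), 0⟩

def chart7p9_ok : okPiece (okFar chart7box) par ⟨0, 0, 0⟩ false none
    (remPoly ofQ yV eV wV fld fld.atoms) chart7p9 = true := by decide +kernel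

end Vale.Agent.P237.Petty.Cor.Band.C
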