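import Vale.Agent.P237.Petty.Cor.Band.C.Chart007a
import Vale.Agent.P237.Petty.Cor.Band.C.Chart007b
import Vale.Agent.P237.Petty.Cor.Band.C.Chart007b2
import Vale.Agent.P237.Petty.Cor.Band.C.Chart007c
import Vale.Agent.P237.Petty.Cor.Band.C.Chart007c2
import Vale.Agent.P237.Petty.Cor.Band.C.Chart007d
import Vale.Agent.P237.Petty.Cor.Band.C.Chart007e
import Vale.Agent.P237.Petty.Cor.Band.C.Chart007f

/-!
# P237: some rows of the upper band, checked by the kernel
-/

set_option linter.style.longLine false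

namespace Vale.Agent.P237.Petty.Cor.Band.C

/-- A row. -/
def chart7 : ChartRow := ⟨chart7box, [chart7p0, chart7p1, chart7p2, chart7p3, chart7p4, chart7p5, chart7p6, chart7p7, chart7p8, chart7p9]⟩

theorem chart7_ok : chart7.ok par fld = true :=
  ChartRow.ok_of (by decide +kernel)
    (List.forall_mem_cons.2 ⟨chart7p0_ok, List.forall_mem_cons.2 ⟨chart7p1_ok, List.forall_mem_cons.2 ⟨chart7p2_ok, List.forall_mem_cons.2 ⟨chart7p3_ok, List.forall_mem_cons.2 ⟨chart7p4_ok, List.forall_mem_cons.2 ⟨chart7p5_ok, List.forall_mem_cons.2 ⟨chart7p6_ok, List.forall_mem_cons.2 ⟨chart7p7_ok, List.forall_mem_cons.2 ⟨chart7p8_ok, List.forall_mem_cons.2 ⟨chart7p9_ok, List.forall_mem_nil _⟩⟩⟩⟩⟩⟩⟩⟩⟩⟩)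
    chart7_big

/-- The rows of this file. -/
def chart007_list : List ChartRow := [chart7]

theorem chart007_list_ok : ∀ R ∈ chart007_list, R.ok par fld = true := by
  simp [chart007_list, chart7_ok]

end Vale.Agent.P237.Petty.Cor.Band.C
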