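import Vale.Agent.P237.Petty.Cor.Band.C.Chart008Box

/-!
# P237: some rows of the upper band, checked by the kernel
-/

set_option linter.style.longLine false

namespace Vale.Agent.P237.Petty.Cor.Band.C

/-- A piece, with multipliers fitted on the box of `B`. -/
def chart8p2 : Piece :=
  let B : Box := chart8box
  ⟨(2 / 5), (7 / 10), (836661 / 1000000), 1, 0, (717161 / 10000000),
      (cornersFar B 1 [41713700000, 48548800000, 20325700000, 3211280000]),
      (cornersFar B 1 [55444500000, 56072900000, 9735960000, 15009000000]),
      [],
      [],
      [],
      [],
      [],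
      (cornersFar B 2 [2663100000000, 77607800000000, 486055000000, 116453000000000]), 0⟩

theorem chart8p2_ok : okPiece (okFar chart8box) par ⟨0, 0, 0⟩ false none
    (remPoly ofQ yV eV wV fld fld.atoms) chart8p2 = true := by decide +kernel

end Vale.Agent.P237.Petty.Cor.Band.C
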