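import Vale.Agent.P237.Petty.Cor.Band.C.Chart008Box

/-!
# P237: some rows of the upper band, checked by the kernel
-/

set_option linter.style.longLine false

namespace Vale.Agent.P237.Petty.Cor.Band.C

/-- A piece, with multipliers fitted on the box of `B`. -/
def chart8p3 : Piece :=
  let B : Box := chart8box
  ⟨(7 / 10), 1, 1, 1, 0, (110227 / 500000),
      (cornersFar B 1 [62816900000, 81372100000, 88192200000, 35822400000]),
      (cornersFar B 1 [54506800000, 54613900000, 8924050000, 13603000000]),
      [],
      [],
      [],
      [],
      [],
      (cornersFar B 2 [6185780000000, 636768000000000, 1445920000000, 975845000000000]), 0⟩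

theorem chart8p3_ok : okPiece (okFar chart8box) par ⟨0, 0, 0⟩ false none
    (remPoly ofQ yV eV wV fld fld.atoms) chart8p3 = true := by decide +kernel

end Vale.Agent.P237.Petty.Cor.Band.C
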