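import Vale.Agent.P237.Petty.Cor.Band.C.Chart008Box

/-!
# P237: some rows of the upper band, checked by the kernel
-/

set_option linter.style.longLine false

namespace Vale.Agent.P237.Petty.Cor.Band.C

/-- A piece, with multipliers fitted on the box of `B`. -/
def chart8p4 : Piece :=
  let B : Box := chart8box
  ⟨1, (21 / 20), (10247 / 10000), 1, 0, (197501 / 100000),
      (cornersFar B 1 [516246000000, 220522000000, 225626000000, 135778000000]),
      (cornersFar B 1 [41638700000, 51566400000, 5227380000, 14776500000]),
      [],
      [],
      [],
      [],
      [],
      (cornersFar B 2 [19712000000000, 9989520000000000, 139003000000000, 9987320000000000]), 0⟩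

def chart8p4_ok : okPiece (okFar chart8box) par ⟨0, 0, 0⟩ false none
    (remPoly ofQ yV eV wV fld fld.atoms) chart8p4 = true := by decide +kernel

/-- A piece, with multipliers fitted on the box of `B`. -/
def chart8p5 : Piece :=
  let B : Box := chart8box
  ⟨(21 / 20), (6 / 5), (21909 / 20000), (561 / 500), (115111 / 1000000), (29879 / 250000),
      (cornersFar B 0 [371252, 719234000, 388905, 674435000]),
      (cornersFar B 0 [89259000, 189264000000, 99192800000, 132085000000]),
      [],
      (cornersFar B 1 [14263600000, 7790160000, 4200720000, 3817050000]),
      [],
      (cornersFar B 1 [184415, 418401000, 176536, 499588000]),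
      [],
      (cornersFar B 0 [24164500000, 18381100000000, 36840800000, 55009200000000]), 0⟩

def chart8p5_ok : okPiece (okFar chart8box) par ⟨0, 0, 0⟩ false none
    (remPoly ofQ yV eV wV fld fld.atoms) chart8p5 = true := by decide +kernel

end Vale.Agent.P237.Petty.Cor.Band.C
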