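import Vale.Agent.P237.Petty.Cor.Band.C.Chart008Box

/-!
# P237: some rows of the upper band, checked by the kernel
-/

set_option linter.style.longLine false

namespace Vale.Agent.P237.Petty.Cor.Band.C

/-- A piece, with multipliers fitted on the box of `B`. -/
def chart8p6 : Piece :=
  let B : Box := chart8box
  ⟨(6 / 5), (3 / 2), (4899 / 4000), (671 / 500), (3677 / 12500), (150301 / 2500000),
      (cornersFar B 0 [1643290, 352472000, 3942750, 124832000]),
      (cornersFar B 0 [96386000, 181669000000, 89875000000, 139110000000]),
      [],
      (cornersFar B 1 [14179400000, 8307970000, 4256710000, 4097510000]),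
      [],
      (cornersFar B 1 [854563, 426271000, 1463780, 514778000]),
      [],
      (cornersFar B 0 [19496700000, 4428060000000, 18003400000, 13339700000000]), 0⟩

theorem chart8p6_ok : okPiece (okFar chart8box) par ⟨0, 0, 0⟩ false none
    (remPoly ofQ yV eV wV fld fld.atoms) chart8p6 = true := by decide +kernel

end Vale.Agent.P237.Petty.Cor.Band.C
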