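import Vale.Agent.P237.Petty.Cor.Band.C.Chart008Box

/-!
# P237: some rows of the upper band, checked by the kernel
-/

set_option linter.style.longLine false

namespace Vale.Agent.P237.Petty.Cor.Band.C

/-- A piece, with multipliers fitted on the box of `B`. -/
def chart8p7 : Piece :=
  let B : Box := chart8box
  ⟨(3 / 2), (11 / 5), (37081 / 25000), (1817 / 1000), (119437 / 200000), (942843 / 10000000),
      (cornersFar B 0 [6615050, 263491000, 23778500, 57002100]),
      (cornersFar B 0 [187819000, 151357000000, 81262700000, 134276000000]),
      [],
      (cornersFar B 1 [14219300000, 9135750000, 4257950000, 4207480000]),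
      [],
      (cornersFar B 1 [3973850, 428395000, 6977680, 516563000]),
      [],
      (cornersFar B 0 [12044200000, 784382000000, 7005620000, 2358080000000]), 0⟩

theorem chart8p7_ok : okPiece (okFar chart8box) par ⟨0, 0, 0⟩ false none
    (remPoly ofQ yV eV wV fld fld.atoms) chart8p7 = true := by decide +kernel

end Vale.Agent.P237.Petty.Cor.Band.C
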