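import Vale.Agent.P237.Petty.Cor.Band.C.Chart008Box

/-!
# P237: some rows of the upper band, checked by the kernel
-/

set_option linter.style.longLine false

namespace Vale.Agent.P237.Petty.Cor.Band.C

/-- A piece, with multipliers fitted on the box of `B`. -/
def chart8p8 : Piece :=
  let B : Box := chart8box
  ⟨(11 / 5), 4, 2, (1483 / 500), (108721 / 100000), (76701 / 500000),
      (cornersFar B 0 [186829000, 188528000, 31934700, 94353600]),
      (cornersFar B 2 [27703300000, 42431700000, 182936000, 56900100000]),
      [],
      (cornersFar B 1 [941109000, 1455990000, 7872230, 1892260000]),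
      (cornersFar B 1 [14380000000, 13974000000, 5101720000, 5276640000]),
      (cornersFar B 1 [327411000, 342327000, 8949340, 428089000]),
      (cornersFar B 1 [378920000, 381784000, 10576800, 459744000]),
      (cornersFar B 2 [165120000000, 264921000000, 26829200000, 295712000000]), 0⟩

theorem chart8p8_ok : okPiece (okFar chart8box) par ⟨0, 0, 0⟩ false none
    (remPoly ofQ yV eV wV fld fld.atoms) chart8p8 = true := by decide +kernel

end Vale.Agent.P237.Petty.Cor.Band.C
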