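import Vale.Agent.P237.Petty.Cor.Band.C.Chart008Box

/-!
# P237: some rows of the upper band, checked by the kernel
-/

set_option linter.style.longLine false

namespace Vale.Agent.P237.Petty.Cor.Band.C

/-- A piece, with multipliers fitted on the box of `B`. -/
def chart8p9 : Piece :=
  let B : Box := chart8box
  ⟨4, 8, (282843 / 100000), (5657 / 1000), (173289 / 100000), (70699 / 200000),
      (cornersFar B 0 [285896000, 265477000, 218403000, 23798100]),
      (cornersFar B 2 [29372700000, 30559300000, 8657820000, 921731000]),
      [],
      (cornersFar B 1 [994488000, 1052660000, 292700000, 31676600]),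
      (cornersFar B 1 [20071300000, 20415100000, 7338540000, 8933100000]),
      (cornersFar B 1 [258979000, 262022000, 192510000, 50418900]),
      (cornersFar B 1 [383564000, 385028000, 387611000, 501514000]),
      (cornersFar B 2 [117342000000, 126128000000, 22117000000, 18904000000]), 0⟩

theorem chart8p9_ok : okPiece (okFar chart8box) par ⟨0, 0, 0⟩ false none
    (remPoly ofQ yV eV wV fld fld.atoms) chart8p9 = true := by decide +kernel

end Vale.Agent.P237.Petty.Cor.Band.C
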