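import Vale.Agent.P237.Petty.Cor.Band.C.Chart008a
import Vale.Agent.P237.Petty.Cor.Band.C.Chart008a2
import Vale.Agent.P237.Petty.Cor.Band.C.Chart008b
import Vale.Agent.P237.Petty.Cor.Band.C.Chart008b2
import Vale.Agent.P237.Petty.Cor.Band.C.Chart008c
import Vale.Agent.P237.Petty.Cor.Band.C.Chart008d
import Vale.Agent.P237.Petty.Cor.Band.C.Chart008d2
import Vale.Agent.P237.Petty.Cor.Band.C.Chart008e
import Vale.Agent.P237.Petty.Cor.Band.C.Chart008e2
import Vale.Agent.P237.Petty.Cor.Band.C.Chart008f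

/-!
# P237: some rows of the upper band, checked by the kernel
-/

set_option linter.style.longLine false

namespace Vale.Agent.P237.Petty.Cor.Band.C

/-- A row. -/
def chart8 : ChartRow := ⟨chart8box, [chart8p0, chart8p1, chart8p2, chart8p3, chart8p4, chart8p5, chart8p6, chart8p7, chart8p8, chart8p9]⟩

theorem chart8_ok : chart8.ok par fld = true :=
  ChartRow.ok_of (by decide +kernel)
    (List.forall_mem_cons.2 ⟨chart8p0_ok, List.forall_mem_cons.2 ⟨chart8p1_ok, List.forall_mem_cons.2 ⟨chart8p2_ok, List.forall_mem_cons.2 ⟨chart8p3_ok, List.forall_mem_cons.2 ⟨chart8p4_ok, List.forall_mem_cons.2 ⟨chart8p5_ok, List.forall_mem_cons.2 ⟨chart8p6_ok, List.forall_mem_cons.2 ⟨chart8p7_ok, List.forall_mem_cons.2 ⟨chart8p8_ok, List.forall_mem_cons.2 ⟨chart8p9_ok, List.forall_mem_nil _⟩⟩⟩⟩⟩⟩⟩⟩⟩⟩)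
    chart8_big

/-- The rows of this file. -/
def chart008_list : List ChartRow := [chart8]

theorem chart008_list_ok : ∀ R ∈ chart008_list, R.ok par fld = true := by
  simp [chart008_list, chart8_ok]

end Vale.Agent.P237.Petty.Cor.Band.C
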