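import Vale.Agent.P237.Petty.Cor.Band.C.Par

/-!
# P237: some rows of the upper band, checked by the kernel
-/

set_option linter.style.longLine false

namespace Vale.Agent.P237.Petty.Cor.Band.C

/-- A row. -/
def rows0 : Row :=
  let B : Box := ⟨0, (1 / 4), 0, (1 / 396), (9 / 20), 3⟩
  ⟨B, .ser (1000001 / 1000000) (35062347 / 100000000) (5003159 / 5000000), .near (237641 / 100000), (101803 / 100000), [
    ⟨0, 1, 1, 1, 0, 0,
      (corners B [67831000, 92112600, 69675, 61906600, 44552200, 117752000, 606595, 66648600]),
      (corners B [27794, 10005200]),
      (corners B [76468, 3633710]),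
      [],
      [],
      [],
      [],
      (corners B [22742200, 268727000]), 0⟩,
    ⟨1, (101803 / 100000), (50449 / 50000), 1, 0, (6567 / 5000000000),
      (corners B [306618000, 171411000, 23660, 102218000, 272627000, 190502000, 8061500, 109124000]),
      (corners B [3829, 9057420]),
      (corners B [28801, 6261590]),
      (corners B [57968, 41287300]),
      [],
      [],
      [],
      (corners B [639068, 3459680000]), (237641 / 100000)⟩]⟩

def rows0_ok : rows0.ok par fld = true := by decide +kernel

/-- A row. -/
def rows1 : Row :=
  let B : Box := ⟨0, (1 / 8), (1 / 396), (1 / 198), (9 / 20), (11619 / 10000)⟩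
  ⟨B, .ser (1000001 / 1000000) (34182303 / 100000000) (5003159 / 5000000), .near (43707 / 20000), (20257 / 20000), [
    ⟨0, 1, 1, 1, 0, 0,
      (corners B [73690600, 116002000, 1217290, 49391200, 68684900, 138118000, 324681, 57523000]),
      (corners B [120837, 9921130]),
      (corners B [295517, 9370320]),
      [],
      [],
      [],
      [],
      (corners B [88676900, 215595000]), 0⟩,
    ⟨1, (20257 / 20000), (100641 / 100000), 1, 0, (34197 / 5000000000),
      (corners B [272977000, 201694000, 13934100, 83969800, 227150000, 231527000, 20871900, 97613000]),
      (corners B [15151, 7529210]),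
      (corners B [2221700, 16500200]),
      (corners B [57301, 110596000]),
      [],
      [],
      [],
      (corners B [2603120, 5617740000]), (43707 / 20000)⟩]⟩

def rows1_ok : rows1.ok par fld = true := by decide +kernel

/-- A row. -/
def rows2 : Row :=
  let B : Box := ⟨0, (1 / 8), (1 / 396), (1 / 198), (11619 / 10000), 3⟩
  ⟨B, .ser (1000001 / 1000000) (34182303 / 100000000) (5003159 / 5000000), .near (220121 / 100000), (51669 / 50000), [
    ⟨0, 1, 1, 1, 0, 0,
      (corners B [87586300, 99507000, 249493, 22491300, 117733000, 133987000, 15977300, 36706200]),
      (corners B [114791, 5615200]),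
      (corners B [98870, 1974520]),
      [],
      [],
      [],
      [],
      (corners B [95804100, 232414000]), 0⟩,
    ⟨1, (51669 / 50000), (12707 / 12500), 1, 0, (16059 / 10000000000),
      (corners B [486119000, 670937000, 25990900, 45047700, 408285000, 454240000, 69061300, 94132000]),
      (corners B [1485190, 53883]),
      (corners B [7116470, 1826880]),
      (corners B [51917300, 42694600]),
      [],
      [],
      [],
      (corners B [150680000, 6411440]), (220121 / 100000)⟩]⟩

def rows2_ok : rows2.ok par fld = true := by decide +kernel

/-- A row. -/
def rows3 : Row :=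
  let B : Box := ⟨(1 / 8), (1 / 4), (1 / 396), (1 / 198), (9 / 20), 3⟩
  ⟨B, .ser (24944987 / 25000000) (35942979 / 100000000) (10012643 / 10000000), .near (119657 / 50000), (103629 / 100000), [
    ⟨0, 1, 1, 1, 0, 0,
      (corners B [994724, 78454000, 74636, 67715200, 1261510, 87365800, 318003, 70482400]),
      (corners B [25071, 9482520]),
      (corners B [63679, 3438430]),
      [],
      [],
      [],
      [],
      (corners B [793976, 207524000]), 0⟩,
    ⟨1, (103629 / 100000), (101799 / 100000), 1, 0, (91739 / 10000000000),
      (corners B [14526100, 108774000, 1717330, 84098800, 4780730, 117205000, 234141, 87655700]),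
      (corners B [19586, 6915670]),
      (corners B [39165000, 5315500]),
      (corners B [125753, 49262600]),
      [],
      [],
      [],
      (corners B [1652740, 2801780000]), (119657 / 50000)⟩]⟩

def rows3_ok : rows3.ok par fld = true := by decide +kernel

/-- The rows of this file. -/
def rows000_list : List Row := [rows0, rows1, rows2, rows3]

theorem rows000_list_ok : ∀ R ∈ rows000_list, R.ok par fld = true := by
  simp [rows000_list, rows0_ok, rows1_ok, rows2_ok, rows3_ok]

end Vale.Agent.P237.Petty.Cor.Band.C
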