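import Vale.Agent.P237.Petty.Cor.Band.C.Par

/-!
# P237: some rows of the upper band, checked by the kernel
-/

set_option linter.style.longLine false

namespace Vale.Agent.P237.Petty.Cor.Band.C

/-- A row. -/
def rows4 : Row :=
  let B : Box := ⟨0, (1 / 8), (1 / 198), (1 / 99), (9 / 20), (11619 / 10000)⟩
  ⟨B, .ser (1000001 / 1000000) (34182849 / 100000000) (10012643 / 10000000), .near (54937 / 25000), (51291 / 50000), [
    ⟨0, 1, 1, 1, 0, 0,
      (corners B [71763900, 147377000, 1783770, 60476300, 61480400, 189057000, 45775, 76180800]),
      (corners B [20686, 13135800]),
      (corners B [50580, 12169900]),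
      [],
      [],
      [],
      [],
      (corners B [52187400, 218597000]), 0⟩,
    ⟨1, (51291 / 50000), (101283 / 100000), 1, 0, (12927 / 10000000000),
      (corners B [350508000, 334590000, 32264900, 114410000, 283796000, 363731000, 36568400, 144414000]),
      (corners B [2930, 8934640]),
      (corners B [417673, 26177400]),
      (corners B [11006, 190466000]),
      [],
      [],
      [],
      (corners B [245211, 3016350000]), (54937 / 25000)⟩]⟩

def rows4_ok : rows4.ok par fld = true := by decide +kernel

/-- A row. -/
def rows5 : Row :=
  let B : Box := ⟨0, (1 / 8), (1 / 198), (1 / 99), (11619 / 10000), (1867 / 1000)⟩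
  ⟨B, .ser (1000001 / 1000000) (34182849 / 100000000) (10012643 / 10000000), .near (22097 / 10000), (10417 / 10000), [
    ⟨0, 1, 1, 1, 0, 0,
      (corners B [117807000, 127181000, 232667, 16513300, 171783000, 186457000, 28176400, 42251300]),
      (corners B [107754, 5173950]),
      (corners B [93011, 2826530]),
      [],
      [],
      [],
      [],
      (corners B [81146700, 180714000]), 0⟩,
    ⟨1, (10417 / 10000), (6379 / 6250), 1, 0, (67699 / 10000000000),
      (corners B [555869000, 681176000, 19640700, 8369660, 420813000, 463150000, 85756100, 108298000]),
      (corners B [511286, 148794]),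
      (corners B [21774300, 15931300]),
      (corners B [85710700, 84687400]),
      [],
      [],
      [],
      (corners B [42034600, 15609600]), (22097 / 10000)⟩]⟩

def rows5_ok : rows5.ok par fld = true := by decide +kernel

/-- A row. -/
def rows6 : Row :=
  let B : Box := ⟨0, (1 / 64), (1 / 198), (5 / 792), (1867 / 1000), 3⟩
  ⟨B, .ser (1000001 / 1000000) (2089859 / 6250000) (10000987 / 10000000), .near (102541 / 50000), (103887 / 100000), [
    ⟨0, 1, 1, 1, 0, 0,
      (corners B [32299000, 43371700, 979992, 17031600, 52722000, 64752800, 25026500, 37404500]),
      (corners B [465415, 4087000]),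
      (corners B [242886, 1422570]),
      [],
      [],
      [],
      [],
      (corners B [348870000, 374378000]), 0⟩,
    ⟨1, (103887 / 100000), (4077 / 4000), 1, 0, (8773 / 5000000000),
      (corners B [459038000, 233820000, 359682000, 95447700, 401200000, 167467000, 304355000, 102035000]),
      (corners B [1824270, 55028]),
      (corners B [50470700, 87136200]),
      (corners B [74753800, 58746800]),
      [],
      [],
      [],
      (corners B [238745000, 14016600]), (102541 / 50000)⟩]⟩

def rows6_ok : rows6.ok par fld = true := by decide +kernel

/-- A row. -/
def rows7 : Row :=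
  let B : Box := ⟨0, (1 / 64), (5 / 792), (1 / 132), (1867 / 1000), 3⟩
  ⟨B, .ser (1000001 / 1000000) (16718873 / 50000000) (312537 / 312500), .near (205681 / 100000), (104677 / 100000), [
    ⟨0, 1, 1, 1, 0, 0,
      (corners B [36561000, 49594600, 942001, 19678000, 56879700, 70810200, 25503000, 39920000]),
      (corners B [459316, 4608550]),
      (corners B [240827, 1599400]),
      [],
      [],
      [],
      [],
      (corners B [347892000, 378285000]), 0⟩,
    ⟨1, (104677 / 100000), (12789 / 12500), 1, 0, (6689 / 10000000000),
      (corners B [658886000, 301927000, 565117000, 158198000, 601559000, 229078000, 498730000, 147203000]),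
      (corners B [3783780, 20930]),
      (corners B [58045900, 128017000]),
      (corners B [155248000, 110204000]),
      [],
      [],
      [],
      (corners B [457670000, 5291180]), (205681 / 100000)⟩]⟩

def rows7_ok : rows7.ok par fld = true := by decide +kernel

/-- The rows of this file. -/
def rows001_list : List Row := [rows4, rows5, rows6, rows7]

theorem rows001_list_ok : ∀ R ∈ rows001_list, R.ok par fld = true := by
  simp [rows001_list, rows4_ok, rows5_ok, rows6_ok, rows7_ok]

end Vale.Agent.P237.Petty.Cor.Band.C
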