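import Vale.Agent.P237.Petty.Cor.Band.C.Par

/-!
# P237: some rows of the upper band, checked by the kernel
-/

set_option linter.style.longLine false

namespace Vale.Agent.P237.Petty.Cor.Band.C

/-- A row. -/
def rows12 : Row :=
  let B : Box := ⟨(1 / 32), (1 / 16), (1 / 198), (1 / 132), (1867 / 1000), (29583 / 12500)⟩
  ⟨B, .ser (49993449 / 50000000) (6793019 / 20000000) (5002369 / 5000000), .near (211561 / 100000), (25949 / 25000), [
    ⟨0, 1, 1, 1, 0, 0,
      (corners B [43285300, 47886100, 1286530, 8551860, 73217200, 78610800, 30876200, 36255300]),
      (corners B [573101, 2782370]),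
      (corners B [299393, 1191000]),
      [],
      [],
      [],
      [],
      (corners B [217811000, 248997000]), 0⟩,
    ⟨1, (25949 / 25000), (101881 / 100000), 1, 0, (79801 / 10000000000),
      (corners B [195296000, 249477000, 5045210, 35508600, 120541000, 148371000, 57692600, 74023400]),
      (corners B [172251, 845600]),
      (corners B [56052000, 39856900]),
      (corners B [23432700, 26638300]),
      [],
      [],
      [],
      (corners B [22036400, 151870000]), (211561 / 100000)⟩]⟩

def rows12_ok : rows12.ok par fld = true := by decide +kernel

/-- A row. -/
def rows13 : Row :=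
  let B : Box := ⟨(1 / 32), (1 / 16), (1 / 198), (1 / 132), (29583 / 12500), (266457 / 100000)⟩
  ⟨B, .ser (49993449 / 50000000) (6793019 / 20000000) (5002369 / 5000000), .near (26491 / 12500), (104281 / 100000), [
    ⟨0, 1, 1, 1, 0, 0,
      (corners B [44223100, 46013500, 1387770, 4297660, 76116900, 78184700, 32271100, 34384700]),
      (corners B [607928, 1652900]),
      (corners B [249920, 618761]),
      [],
      [],
      [],
      [],
      (corners B [219760000, 239219000]), 0⟩,
    ⟨1, (104281 / 100000), (102119 / 100000), 1, 0, (45307 / 10000000000),
      (corners B [283057000, 245567000, 56124800, 4165180, 168485000, 133211000, 87458100, 69802600]),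
      (corners B [976205, 127461]),
      (corners B [74503900, 79576000]),
      (corners B [64139400, 61753000]),
      [],
      [],
      [],
      (corners B [139352000, 19950900]), (26491 / 12500)⟩]⟩

def rows13_ok : rows13.ok par fld = true := by decide +kernel

/-- A row. -/
def rows14 : Row :=
  let B : Box := ⟨(1 / 32), (1 / 16), (1 / 198), (5 / 792), (266457 / 100000), 3⟩
  ⟨B, .ser (99986899 / 100000000) (33965061 / 100000000) (2500987 / 2500000), .near (2117 / 1000), (26003 / 25000), [
    ⟨0, 1, 1, 1, 0, 0,
      (corners B [43068800, 44713100, 1647500, 4227790, 59582200, 61345900, 18198800, 20109100]),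
      (corners B [690022, 1502190]),
      (corners B [250894, 498969]),
      [],
      [],
      [],
      [],
      (corners B [222276000, 240724000]), 0⟩,
    ⟨1, (26003 / 25000), (101987 / 100000), 1, 0, (10319 / 5000000000),
      (corners B [263615000, 254431000, 27489600, 1765710, 181376000, 161075000, 60198100, 51247500]),
      (corners B [631770, 63257]),
      (corners B [54474500, 54710600]),
      (corners B [42417200, 41695100]),
      [],
      [],
      [],
      (corners B [138383000, 17659800]), (2117 / 1000)⟩]⟩

def rows14_ok : rows14.ok par fld = true := by decide +kernel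

/-- A row. -/
def rows15 : Row :=
  let B : Box := ⟨(1 / 32), (3 / 64), (5 / 792), (1 / 132), (266457 / 100000), 3⟩
  ⟨B, .ser (49995111 / 50000000) (8464681 / 25000000) (10003553 / 10000000), .near (210101 / 100000), (52389 / 50000), [
    ⟨0, 1, 1, 1, 0, 0,
      (corners B [28687100, 30759500, 1687750, 4910770, 45560700, 47739600, 20106600, 22363200]),
      (corners B [708444, 1655780]),
      (corners B [258935, 551606]),
      [],
      [],
      [],
      [],
      (corners B [259862000, 275860000]), 0⟩,
    ⟨1, (52389 / 50000), (51181 / 50000), 1, 0, (7681 / 10000000000),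
      (corners B [269836000, 139062000, 140285000, 746312, 190008000, 80072200, 109796000, 45625900]),
      (corners B [1423550, 22564]),
      (corners B [102486000, 119557000]),
      (corners B [90914700, 84772100]),
      [],
      [],
      [],
      (corners B [308290000, 6142650]), (210101 / 100000)⟩]⟩

def rows15_ok : rows15.ok par fld = true := by decide +kernel

/-- The rows of this file. -/
def rows003_list : List Row := [rows12, rows13, rows14, rows15]

theorem rows003_list_ok : ∀ R ∈ rows003_list, R.ok par fld = true := by
  simp [rows003_list, rows12_ok, rows13_ok, rows14_ok, rows15_ok]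

end Vale.Agent.P237.Petty.Cor.Band.C
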