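import Vale.Agent.P237.Petty.Cor.Band.C.Par

/-!
# P237: some rows of the upper band, checked by the kernel
-/

set_option linter.style.longLine false

namespace Vale.Agent.P237.Petty.Cor.Band.C

/-- A row. -/
def rows20 : Row :=
  let B : Box := ⟨(1 / 16), (1 / 8), (1 / 198), (5 / 792), (266457 / 100000), 3⟩
  ⟨B, .ser (24986639 / 25000000) (4326307 / 12500000) (5003949 / 5000000), .near (27603 / 12500), (20837 / 20000), [
    ⟨0, 1, 1, 1, 0, 0,
      (corners B [51365800, 52517900, 271360, 2360550, 62975500, 64166000, 9603820, 11046600]),
      (corners B [122221, 864684]),
      (corners B [44477, 284273]),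
      [],
      [],
      [],
      [],
      (corners B [84162800, 121763000]), 0⟩,
    ⟨1, (20837 / 20000), (12759 / 12500), 1, 0, (22231 / 10000000000),
      (corners B [349284000, 340170000, 12538000, 1116750, 246271000, 221812000, 39310800, 33501800]),
      (corners B [602163, 66590]),
      (corners B [19593900, 22761100]),
      (corners B [36244500, 35016400]),
      [],
      [],
      [],
      (corners B [139402000, 19131700]), (27603 / 12500)⟩]⟩

def rows20_ok : rows20.ok par fld = true := by decide +kernel

/-- A row. -/
def rows21 : Row :=
  let B : Box := ⟨(1 / 16), (3 / 32), (5 / 792), (1 / 132), (266457 / 100000), 3⟩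
  ⟨B, .ser (49980063 / 50000000) (134349 / 390625) (2501777 / 2500000), .near (54223 / 25000), (26233 / 25000), [
    ⟨0, 1, 1, 1, 0, 0,
      (corners B [37043900, 38541800, 246896, 2882450, 49360600, 50916300, 12938400, 14674600]),
      (corners B [115825, 1042000]),
      (corners B [42461, 344869]),
      [],
      [],
      [],
      [],
      (corners B [137570000, 168911000]), 0⟩,
    ⟨1, (26233 / 25000), (102437 / 100000), 1, 0, (4299 / 5000000000),
      (corners B [266589000, 195911000, 42164000, 424813, 178449000, 103374000, 61660800, 31450900]),
      (corners B [1311520, 23970]),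
      (corners B [77865300, 87176300]),
      (corners B [75420600, 71200600]),
      [],
      [],
      [],
      (corners B [303337000, 6892110]), (54223 / 25000)⟩]⟩

def rows21_ok : rows21.ok par fld = true := by decide +kernel

/-- A row. -/
def rows22 : Row :=
  let B : Box := ⟨(3 / 32), (1 / 8), (5 / 792), (1 / 132), (266457 / 100000), 3⟩
  ⟨B, .ser (99919411 / 100000000) (34827481 / 100000000) (10009479 / 10000000), .near (22153 / 10000), (105037 / 100000), [
    ⟨0, 1, 1, 1, 0, 0,
      (corners B [27690500, 29040900, 266135, 2567150, 36601900, 37976000, 9264240, 10784700]),
      (corners B [118576, 872650]),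
      (corners B [43131, 286608]),
      [],
      [],
      [],
      [],
      (corners B [77211800, 116383000]), 0⟩,
    ⟨1, (105037 / 100000), (12811 / 12500), 1, 0, (4741 / 5000000000),
      (corners B [197447000, 134709000, 23291500, 316697, 108470000, 55021700, 38175400, 17565400]),
      (corners B [1033830, 24911]),
      (corners B [62114300, 69904200]),
      (corners B [58785100, 54618800]),
      [],
      [],
      [],
      (corners B [250428000, 7637510]), (22153 / 10000)⟩]⟩

def rows22_ok : rows22.ok par fld = true := by decide +kernel

/-- A row. -/
def rows23 : Row :=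
  let B : Box := ⟨(1 / 16), (1 / 8), (1 / 132), (1 / 99), (1867 / 1000), 3⟩
  ⟨B, .ser (9994653 / 10000000) (34610869 / 100000000) (10012643 / 10000000), .near (222947 / 100000), (106759 / 100000), [
    ⟨0, 1, 1, 1, 0, 0,
      (corners B [66142500, 74409400, 267933, 12514800, 86889900, 96189500, 18038900, 27271100]),
      (corners B [122665, 3490590]),
      (corners B [64301, 1185040]),
      [],
      [],
      [],
      [],
      (corners B [69999100, 178039000]), 0⟩,
    ⟨1, (21 / 20), (10247 / 10000), 1, 0, (11457 / 2500000000),
      (corners B [366378000, 382527000, 39075900, 2032010, 212207000, 157165000, 72095600, 51953300]),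
      (corners B [1870130, 129029]),
      (corners B [58573100, 55433700]),
      (corners B [75137900, 6854070]),
      [],
      [],
      [],
      (corners B [532700000, 8539820000]), (222947 / 100000)⟩,
    ⟨(21 / 20), (106759 / 100000), (4133 / 4000), (1059 / 1000), (14331 / 250000), (132571 / 1000),
      (corners B [15685400000000, 13539200000000, 15285300000000, 12700000000000, 14223700000000, 10804600000000, 14086100000000, 9631750000000]),
      (corners B [578521000000, 1531300000]),
      (corners B [199885000000000, 39229800000000]),
      (corners B [571136000000, 1535460000]),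
      (corners B [22487600000, 90485800]),
      (corners B [8061030000000, 46780200000]),
      (corners B [979381000000, 2794540000]),
      (corners B [199944000000000, 199999000000000]), 0⟩]⟩

def rows23_ok : rows23.ok par fld = true := by decide +kernel

/-- The rows of this file. -/
def rows005_list : List Row := [rows20, rows21, rows22, rows23]

theorem rows005_list_ok : ∀ R ∈ rows005_list, R.ok par fld = true := by
  simp [rows005_list, rows20_ok, rows21_ok, rows22_ok, rows23_ok]

end Vale.Agent.P237.Petty.Cor.Band.C
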