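import Vale.Agent.P237.Petty.Cor.Band.C.Par

/-!
# P237: some rows of the upper band, checked by the kernel
-/

set_option linter.style.longLine false

namespace Vale.Agent.P237.Petty.Cor.Band.C

/-- A row. -/
def rows28 : Row :=
  let B : Box := ⟨(5 / 4), (3 / 2), 0, (1 / 99), (9 / 20), 3⟩
  ⟨B, .ser (20221743 / 25000000) (14669473 / 25000000) (10153847 / 10000000), .near (34533 / 6250), (58373 / 50000), [
    ⟨0, 1, 1, 1, 0, 0,
      (corners B [195667, 94498500, 585042, 82761700, 1906270, 98812100, 576334, 111734000]),
      (corners B [28610, 7186000]),
      (corners B [11106300, 2173380]),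
      [],
      [],
      [],
      [],
      (corners B [10096400, 385990000]), 0⟩,
    ⟨1, (21 / 20), (10247 / 10000), 1, 0, (83553 / 1250000000),
      (corners B [187570, 40166600, 438480, 22976400, 6566580, 106921000, 667992, 138204000]),
      (corners B [26409, 2747140]),
      (corners B [66705200, 1239240]),
      (corners B [63138200, 11462600]),
      [],
      [],
      [],
      (corners B [48018400, 2099480000]), (34533 / 6250)⟩,
    ⟨(21 / 20), (58373 / 50000), (2161 / 2000), (1107 / 1000), (25413 / 250000), (19689 / 5000000000),
      (corners B [157525000, 47388, 106050000, 2865910, 396274, 2878, 38315600, 2004640]),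
      (corners B [323958, 2259]),
      (corners B [4718230000, 423577000]),
      (corners B [179313, 1251]),
      (corners B [20232, 143]),
      (corners B [3830850, 26110]),
      (corners B [442703, 3085]),
      (corners B [1373440000, 15972000]), 0⟩]⟩

def rows28_ok : rows28.ok par fld = true := by decide +kernel

/-- A row. -/
def rows29 : Row :=
  let B : Box := ⟨(3 / 2), 2, 0, (1 / 198), (9 / 20), 3⟩
  ⟨B, .ser (13170331 / 20000000) (686539 / 1000000) (10102041 / 10000000), .near (734511 / 100000), (27783 / 25000), [
    ⟨0, 1, 1, 1, 0, 0,
      (corners B [600980, 1186860, 4055540, 6054820, 49360300, 99850700, 1040430, 242754000]),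
      (corners B [13225200, 253465]),
      (corners B [124771000, 102479]),
      [],
      [],
      [],
      [],
      (corners B [443818, 659304000]), 0⟩,
    ⟨1, (27783 / 25000), (5271 / 5000), 1, 0, (3219 / 500000000),
      (corners B [42742, 241331, 136066000, 209903000, 114853000, 201822000, 659661, 307384000]),
      (corners B [10306, 44320]),
      (corners B [113123000, 48070]),
      (corners B [163408, 100542]),
      [],
      [],
      [],
      (corners B [7460550000, 6503710]), (734511 / 100000)⟩]⟩

def rows29_ok : rows29.ok par fld = true := by decide +kernel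

/-- A row. -/
def rows30 : Row :=
  let B : Box := ⟨(3 / 2), (7 / 4), (1 / 198), (1 / 99), (9 / 20), 3⟩
  ⟨B, .ser (17750849 / 25000000) (32609703 / 50000000) (10179949 / 10000000), .near (129751 / 20000), (59831 / 50000), [
    ⟨0, 1, 1, 1, 0, 0,
      (corners B [16112200, 20697300, 57162100, 88999600, 231333, 62730300, 642264, 111397000]),
      (corners B [407121, 3667650]),
      (corners B [134327000, 1299280]),
      [],
      [],
      [],
      [],
      (corners B [210796, 88639500]), 0⟩,
    ⟨1, (21 / 20), (10247 / 10000), 1, 0, (1567 / 1562500),
      (corners B [1394160, 3465470, 90538800, 44644900, 59046200, 36185100, 26896000, 42603400]),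
      (corners B [305389, 709309]),
      (corners B [598268, 201368]),
      (corners B [47722100, 38803300]),
      [],
      [],
      [],
      (corners B [21027800000, 8272810000]), (129751 / 20000)⟩,
    ⟨(21 / 20), (59831 / 50000), (109391 / 100000), (1121 / 1000), (5711 / 50000), (17157 / 5000000000),
      (corners B [37552500, 3916, 33700100, 3737420, 790940, 3987, 25873200, 3558280]),
      (corners B [730483, 1996]),
      (corners B [3839940000, 578904000]),
      (corners B [372835, 1026]),
      (corners B [41358, 113]),
      (corners B [8094060, 24007]),
      (corners B [953139, 2638]),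
      (corners B [944085000, 70401200]), 0⟩]⟩

def rows30_ok : rows30.ok par fld = true := by decide +kernel

/-- A row. -/
def rows31 : Row :=
  let B : Box := ⟨(7 / 4), 2, (1 / 198), (1 / 99), (9 / 20), 3⟩
  ⟨B, .ser (11611967 / 20000000) (72553611 / 100000000) (5103093 / 5000000), .near (380537 / 50000), (61533 / 50000), [
    ⟨0, 1, 1, 1, 0, 0,
      (corners B [429118, 1398700, 110774000, 255087000, 68733500, 131118000, 1156910, 416942000]),
      (corners B [170059000, 374376]),
      (corners B [187531000, 127799]),
      [],
      [],
      [],
      [],
      (corners B [378158, 15527400]), 0⟩,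
    ⟨1, (61533 / 50000), (13867 / 12500), 1, 0, (69107 / 10000000000),
      (corners B [23773200, 311624, 455587000, 269244000, 337329000, 145122000, 1046590000, 5416950]),
      (corners B [4789060, 63775]),
      (corners B [110725000, 53651000]),
      (corners B [12808100, 76330800]),
      [],
      [],
      [],
      (corners B [14668300000, 30306700]), (380537 / 50000)⟩]⟩

def rows31_ok : rows31.ok par fld = true := by decide +kernel

/-- The rows of this file. -/
def rows007_list : List Row := [rows28, rows29, rows30, rows31]

theorem rows007_list_ok : ∀ R ∈ rows007_list, R.ok par fld = true := by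
  simp [rows007_list, rows28_ok, rows29_ok, rows30_ok, rows31_ok]

end Vale.Agent.P237.Petty.Cor.Band.C
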