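import Vale.Agent.P237.Petty.Cor.Band.C.Par

/-!
# P237: some rows of the upper band, checked by the kernel
-/

set_option linter.style.longLine false

namespace Vale.Agent.P237.Petty.Cor.Band.C

/-- A row. -/
def rows32 : Row :=
  let B : Box := ⟨2, (17 / 8), 0, (1 / 198), (9 / 20), 3⟩
  ⟨B, .ser (9337931 / 20000000) (19539787 / 25000000) (1263561 / 1250000), .near (396891 / 50000), (11203 / 10000), [
    ⟨0, 1, 1, 1, 0, 0,
      (corners B [464568, 1852290, 111122000, 219553000, 154776000, 368246000, 2197890, 482753000]),
      (corners B [164056000, 501347]),
      (corners B [119760000, 149207]),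
      [],
      [],
      [],
      [],
      (corners B [455404, 15845200]), 0⟩,
    ⟨1, (11203 / 10000), (21169 / 20000), 1, 0, (567137 / 100000000),
      (corners B [30093800, 1826960, 253333000, 123944000, 461089000, 274867000, 939010000, 324301000]),
      (corners B [5694770, 458372]),
      (corners B [2945210, 63957]),
      (corners B [123807000, 93545600]),
      [],
      [],
      [],
      (corners B [26613900000, 3742400000]), (396891 / 50000)⟩]⟩

def rows32_ok : rows32.ok par fld = true := by decide +kernel

/-- A row. -/
def rows33 : Row :=
  let B : Box := ⟨(17 / 8), (9 / 4), 0, (1 / 198), (9 / 20), 3⟩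
  ⟨B, .ser (18779683 / 50000000) (41216649 / 50000000) (10114943 / 10000000), .near (428817 / 50000), (112997 / 100000), [
    ⟨0, 1, 1, 1, 0, 0,
      (corners B [508841, 2182630, 131148000, 283365000, 173557000, 417926000, 3062340, 566680000]),
      (corners B [293953000, 575767]),
      (corners B [160725000, 163514]),
      [],
      [],
      [],
      [],
      (corners B [529484, 17926500]), 0⟩,
    ⟨1, (112997 / 100000), (106301 / 100000), 1, 0, (436703 / 100000000),
      (corners B [37509700, 2327300, 324628000, 148630000, 621121000, 302366000, 1769470000, 314582000]),
      (corners B [7308200, 537053]),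
      (corners B [3519300, 81526]),
      (corners B [167136000, 133661000]),
      [],
      [],
      [],
      (corners B [34832900000, 4155510000]), (428817 / 50000)⟩]⟩

def rows33_ok : rows33.ok par fld = true := by decide +kernel

/-- A row. -/
def rows34 : Row :=
  let B : Box := ⟨2, (17 / 8), (1 / 198), (1 / 99), (9 / 20), 3⟩
  ⟨B, .ser (45903979 / 100000000) (39275993 / 50000000) (2043871 / 2000000), .near (25753 / 3125), (7811 / 6250), [
    ⟨0, 1, 1, 1, 0, 0,
      (corners B [456233, 2542840, 91552000, 223959000, 123662000, 359359000, 1301850, 384691000]),
      (corners B [333519000, 728277]),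
      (corners B [229788000, 203590]),
      [],
      [],
      [],
      [],
      (corners B [397050, 14126300]), 0⟩,
    ⟨1, (7811 / 6250), (111793 / 100000), 1, 0, (93061 / 2500000000),
      (corners B [72701600, 1849290, 452107000, 261903000, 694293000, 423113000, 1609450000, 996240000]),
      (corners B [12120400, 370746]),
      (corners B [84267100, 25137200]),
      (corners B [113143000, 203324000]),
      [],
      [],
      [],
      (corners B [19854500000, 148718000]), (25753 / 3125)⟩]⟩

def rows34_ok : rows34.ok par fld = true := by decide +kernel

/-- A row. -/
def rows35 : Row :=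
  let B : Box := ⟨(17 / 8), (9 / 4), (1 / 198), (1 / 99), (9 / 20), 3⟩
  ⟨B, .ser (36567231 / 100000000) (16580037 / 20000000) (10232559 / 10000000), .near (223047 / 25000), (127039 / 100000), [
    ⟨0, 1, 1, 1, 0, 0,
      (corners B [507756, 2792990, 113161000, 282743000, 140881000, 385613000, 1666700, 83591600]),
      (corners B [490722000, 1222220]),
      (corners B [257530000, 16778400]),
      [],
      [],
      [],
      [],
      (corners B [459562, 7214080]), 0⟩,
    ⟨1, (127039 / 100000), (14089 / 12500), 1, 0, (20403 / 500000000),
      (corners B [89442700, 2164010, 580571000, 314688000, 923006000, 491961000, 2353600000, 2067530000]),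
      (corners B [15455400, 429595]),
      (corners B [92095400, 23925400]),
      (corners B [138301000, 250941000]),
      [],
      [],
      [],
      (corners B [23159300000, 144793000]), (223047 / 25000)⟩]⟩

def rows35_ok : rows35.ok par fld = true := by decide +kernel

/-- The rows of this file. -/
def rows008_list : List Row := [rows32, rows33, rows34, rows35]

theorem rows008_list_ok : ∀ R ∈ rows008_list, R.ok par fld = true := by
  simp [rows008_list, rows32_ok, rows33_ok, rows34_ok, rows35_ok]

end Vale.Agent.P237.Petty.Cor.Band.C
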