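import Vale.Agent.P237.Petty.Cor.Band.C.Par

/-!
# P237: some rows of the upper band, checked by the kernel
-/

set_option linter.style.longLine false

namespace Vale.Agent.P237.Petty.Cor.Band.C

/-- A row. -/
def rows40 : Row :=
  let B : Box := ⟨(21 / 8), (11 / 4), 0, (1 / 198), (9 / 20), 3⟩
  ⟨B, .ser (-2753661 / 25000000) (10216927 / 10000000) (5070423 / 5000000), .near (116627 / 10000), (58837 / 50000), [
    ⟨0, 1, 1, 1, 0, 0,
      (corners B [281266, 1611370, 209193000, 387194000, 301793000, 649886000, 642170000, 1472970000]),
      (corners B [880588000, 573141]),
      (corners B [309797000, 70250200]),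
      [],
      [],
      [],
      [],
      (corners B [373637, 5890730]), 0⟩,
    ⟨1, (58837 / 50000), (54239 / 50000), 1, 0, (852053 / 1000000000),
      (corners B [11658900, 51392800, 528988000, 478856000, 975577000, 1287790000, 3145940000, 2960200000]),
      (corners B [468113000, 8062740]),
      (corners B [255923000, 4991000]),
      (corners B [41423400, 281263000]),
      [],
      [],
      [],
      (corners B [28089300000, 1313640000]), (116627 / 10000)⟩]⟩

def rows40_ok : rows40.ok par fld = true := by decide +kernel

/-- A row. -/
def rows41 : Row :=
  let B : Box := ⟨(11 / 4), 3, 0, (1 / 198), (9 / 20), 3⟩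
  ⟨B, .ser (-35142941 / 100000000) (5545233 / 5000000) (10153847 / 10000000), .near (67927 / 5000), (120587 / 100000), [
    ⟨0, 1, 1, 1, 0, 0,
      (corners B [25202, 220974, 805200000, 1228710000, 467380000, 844954000, 2981090000, 3010810000]),
      (corners B [1184690000, 45362]),
      (corners B [268606000, 109977000]),
      [],
      [],
      [],
      [],
      (corners B [35393, 1607500000]), 0⟩,
    ⟨1, (120587 / 100000), (109813 / 100000), 1, 0, (58451 / 250000000),
      (corners B [4882060, 19202800, 2703880000, 1066630000, 1089000000, 1428380000, 5462700000, 5574640000]),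
      (corners B [599674000, 3196100]),
      (corners B [321626000, 23493400]),
      (corners B [6255500, 266505000]),
      [],
      [],
      [],
      (corners B [24093600000, 356414000]), (67927 / 5000)⟩]⟩

def rows41_ok : rows41.ok par fld = true := by decide +kernel

/-- A row. -/
def rows42 : Row :=
  let B : Box := ⟨(5 / 2), (11 / 4), (1 / 198), (1 / 99), (9 / 20), (11619 / 10000)⟩
  ⟨B, .ser (-58259729 / 1000000000) (10039839 / 10000000) (2057143 / 2000000), .near (60119 / 5000), (57057 / 50000), [
    ⟨0, 1, 1, 1, 0, 0,
      (corners B [651707, 1257510, 265538000, 422924000, 172355000, 363509000, 5408520, 135744000]),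
      (corners B [487997000, 626689]),
      (corners B [804924000, 389814000]),
      [],
      [],
      [],
      [],
      (corners B [742735, 2793590]), 0⟩,
    ⟨1, (57057 / 50000), (4273 / 4000), 1, 0, (480373 / 500000000),
      (corners B [5118510, 8750640, 225331000, 1242450000, 501828000, 941382000, 1739290000, 4394210000]),
      (corners B [280977000, 2150920]),
      (corners B [681527000, 155160000]),
      (corners B [6483030, 735682000]),
      [],
      [],
      [],
      (corners B [35801800000, 411959000]), (60119 / 5000)⟩]⟩

def rows42_ok : rows42.ok par fld = true := by decide +kernel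

/-- A row. -/
def rows43 : Row :=
  let B : Box := ⟨(11 / 4), 3, (1 / 198), (1 / 99), (9 / 20), (11619 / 10000)⟩
  ⟨B, .ser (-38335031 / 100000000) (5603271 / 5000000) (33 / 32), .near (140729 / 10000), (116519 / 100000), [
    ⟨0, 1, 1, 1, 0, 0,
      (corners B [874890, 1870600, 447132000, 656659000, 230607000, 404185000, 787514000, 1161260000]),
      (corners B [797191000, 853464]),
      (corners B [841644000, 473809000]),
      [],
      [],
      [],
      [],
      (corners B [1220250, 4767370]), 0⟩,
    ⟨1, (116519 / 100000), (13493 / 12500), 1, 0, (12749 / 12500000),
      (corners B [5632230, 12712700, 955932000, 1845970000, 518009000, 1312230000, 2443740000, 5628600000]),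
      (corners B [498938000, 2998630]),
      (corners B [822226000, 267166000]),
      (corners B [6230210, 524558000]),
      [],
      [],
      [],
      (corners B [21856900000, 408340000]), (140729 / 10000)⟩]⟩

def rows43_ok : rows43.ok par fld = true := by decide +kernel

/-- The rows of this file. -/
def rows010_list : List Row := [rows40, rows41, rows42, rows43]

theorem rows010_list_ok : ∀ R ∈ rows010_list, R.ok par fld = true := by
  simp [rows010_list, rows40_ok, rows41_ok, rows42_ok, rows43_ok]

end Vale.Agent.P237.Petty.Cor.Band.C
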