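import Vale.Agent.P237.Petty.Cor.Band.C.Par

/-!
# P237: some rows of the upper band, checked by the kernel
-/

set_option linter.style.longLine false

namespace Vale.Agent.P237.Petty.Cor.Band.C

/-- A row. -/
def rows96 : Row :=
  let B : Box := ⟨24, 32, (1 / 198), (1 / 99), (11619 / 10000), 3⟩
  ⟨B, .none, .far (8 / 5) (309713 / 500000), (140291 / 25000), [
    ⟨0, 1, 1, 1, 0, 0,
      (corners B [413165000000, 314144000000, 520527000000, 147008000000, 12151200000, 20960500000, 24712000000, 29400200000]),
      (corners B [40419000000, 43516900000]),
      [],
      [],
      [],
      [],
      [],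
      (corners B [708016000000, 2798660000000]), 0⟩,
    ⟨1, (3 / 2), (4899 / 4000), 1, 0, (15457 / 100000),
      (corners B [897356000000, 359456000000, 1428170000000, 306021000000, 498293000000, 46701600000, 139934000000, 76557100000]),
      (corners B [20905700000, 41181500000]),
      [],
      [],
      [],
      [],
      [],
      (corners B [1465260000000, 12068500000000]), 0⟩,
    ⟨(3 / 2), (140291 / 25000), (23689 / 10000), (2901 / 1000), (21301 / 20000), (293983 / 500000),
      (corners B [665524, 148278000, 4129170000, 756828000, 3418630000, 787476000, 2917940000, 540573000]),
      (corners B [19553100, 6451600000]),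
      [],
      (corners B [928890000, 376761000]),
      (corners B [6475160000, 7623670000]),
      (corners B [659659, 149260000]),
      (corners B [7483200, 198815000]),
      (corners B [14395700000, 18045200000]), 0⟩]⟩

theorem rows96_ok : rows96.ok par fld = true := by decide +kernel

/-- The rows of this file. -/
def rows024_list : List Row := [rows96]

theorem rows024_list_ok : ∀ R ∈ rows024_list, R.ok par fld = true := by
  simp [rows024_list, rows96_ok]

end Vale.Agent.P237.Petty.Cor.Band.C
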