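import Vale.Agent.P237.Petty.Cor.Band.Cell
import Vale.Agent.P237.Petty.Cor.Band.C.Rows000
import Vale.Agent.P237.Petty.Cor.Band.C.Rows001
import Vale.Agent.P237.Petty.Cor.Band.C.Rows002
import Vale.Agent.P237.Petty.Cor.Band.C.Rows003
import Vale.Agent.P237.Petty.Cor.Band.C.Rows004
import Vale.Agent.P237.Petty.Cor.Band.C.Rows005
import Vale.Agent.P237.Petty.Cor.Band.C.Rows006
import Vale.Agent.P237.Petty.Cor.Band.C.Rows007
import Vale.Agent.P237.Petty.Cor.Band.C.Rows008
import Vale.Agent.P237.Petty.Cor.Band.C.Rows009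
import Vale.Agent.P237.Petty.Cor.Band.C.Rows010
import Vale.Agent.P237.Petty.Cor.Band.C.Rows011
import Vale.Agent.P237.Petty.Cor.Band.C.Rows012
import Vale.Agent.P237.Petty.Cor.Band.C.Rows013
import Vale.Agent.P237.Petty.Cor.Band.C.Rows014
import Vale.Agent.P237.Petty.Cor.Band.C.Rows015
import Vale.Agent.P237.Petty.Cor.Band.C.Rows016
import Vale.Agent.P237.Petty.Cor.Band.C.Rows017
import Vale.Agent.P237.Petty.Cor.Band.C.Rows018
import Vale.Agent.P237.Petty.Cor.Band.C.Rows019
import Vale.Agent.P237.Petty.Cor.Band.C.Rows020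
import Vale.Agent.P237.Petty.Cor.Band.C.Rows021
import Vale.Agent.P237.Petty.Cor.Band.C.Rows022
import Vale.Agent.P237.Petty.Cor.Band.C.Rows023
import Vale.Agent.P237.Petty.Cor.Band.C.Rows024
import Vale.Agent.P237.Petty.Cor.Band.C.Chart000
import Vale.Agent.P237.Petty.Cor.Band.C.Chart001
import Vale.Agent.P237.Petty.Cor.Band.C.Chart002
import Vale.Agent.P237.Petty.Cor.Band.C.Chart003
import Vale.Agent.P237.Petty.Cor.Band.C.Chart004
import Vale.Agent.P237.Petty.Cor.Band.C.Chart005
import Vale.Agent.P237.Petty.Cor.Band.C.Chart006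
import Vale.Agent.P237.Petty.Cor.Band.C.Chart007
import Vale.Agent.P237.Petty.Cor.Band.C.Chart008

/-!
# P237: the upper band of small values
-/

set_option linter.style.longLine false

namespace Vale.Agent.P237.Petty.Cor.Band.C

/-- The band. -/
def band : Data where
  par := par
  fld := fld
  w0 := (9 / 20)
  w1 := 3
  bulk := [rows000_list, rows001_list, rows002_list, rows003_list, rows004_list, rows005_list, rows006_list, rows007_list, rows008_list, rows009_list, rows010_list, rows011_list, rows012_list, rows013_list, rows014_list, rows015_list, rows016_list, rows017_list, rows018_list, rows019_list, rows020_list, rows021_list, rows022_list, rows023_list, rows024_list].flatten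
  chart := [chart000_list, chart001_list, chart002_list, chart003_list, chart004_list, chart005_list, chart006_list, chart007_list, chart008_list].flatten
  cut := (.split 0 (7 / 2) (.split 0 (1 / 4) (.split 1 (1 / 198) (.split 1 (1 / 396) (.leaf 0) (.split 0 (1 / 8) (.split 2 (11619 / 10000) (.leaf 1) (.leaf 2)) (.leaf 3))) (.split 0 (1 / 8) (.split 2 (1867 / 1000) (.split 2 (11619 / 10000) (.leaf 4) (.leaf 5)) (.split 0 (1 / 32) (.split 0 (1 / 64) (.split 1 (1 / 132) (.split 1 (5 / 792) (.leaf 6) (.leaf 7)) (.leaf 8)) (.split 1 (1 / 132) (.split 1 (5 / 792) (.leaf 9) (.leaf 10)) (.leaf 11))) (.split 0 (1 / 16) (.split 1 (1 / 132) (.split 2 (266457 / 100000) (.split 2 (29583 / 12500) (.leaf 12) (.leaf 13)) (.split 1 (5 / 792) (.leaf 14) (.split 0 (3 / 64) (.leaf 15) (.leaf 16)))) (.leaf 17)) (.split 1 (1 / 132) (.split 2 (266457 / 100000) (.split 2 (29583 / 12500) (.leaf 18) (.leaf 19)) (.split 1 (5 / 792) (.leaf 20) (.split 0 (3 / 32) (.leaf 21) (.leaf 22)))) (.leaf 23))))) (.leaf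 24))) (.split 0 (9 / 4) (.split 0 2 (.split 0 (5 / 4) (.split 0 (1 / 2) (.leaf 25) (.split 0 1 (.leaf 26) (.leaf 27))) (.split 0 (3 / 2) (.leaf 28) (.split 1 (1 / 198) (.leaf 29) (.split 0 (7 / 4) (.leaf 30) (.leaf 31))))) (.split 0 (17 / 8) (.split 1 (1 / 198) (.leaf 32) (.leaf 34)) (.split 1 (1 / 198) (.leaf 33) (.leaf 35)))) (.split 0 (5 / 2) (.split 2 (11619 / 10000) (.split 1 (1 / 198) (.leaf 36) (.leaf 37)) (.leaf 38)) (.split 1 (1 / 198) (.split 0 (11 / 4) (.split 0 (21 / 8) (.leaf 39) (.leaf 40)) (.split 0 3 (.leaf 41) (.leaf 45))) (.split 0 3 (.split 2 (11619 / 10000) (.split 0 (11 / 4) (.leaf 42) (.leaf 43)) (.leaf 44)) (.leaf 46)))))) (.split 0 12 (.split 0 8 (.split 2 (11619 / 10000) (.split 0 6 (.split 1 (1 / 198) (.leaf 47) (.leaf 48)) (.split 1 (1 / 198) (.split 1 (1 / 396) (.leaf 51) (.leaf 52)) (.leaf 53))) (.split 0 6 (.split 0 (19 / 4) (.leaf 49) (.leaf 50)) (.split 0 (15 / 2) (.split 0 7 (.leaf 54) (.leaf 55)) (.leaf 56)))) (.split 1 (1 / 198) (.split 0 10 (.split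 1 (1 / 396) (.leaf 57) (.leaf 58)) (.split 1 (1 / 396) (.leaf 59) (.leaf 60))) (.split 2 (11619 / 10000) (.split 0 10 (.split 1 (1 / 132) (.leaf 61) (.leaf 62)) (.split 1 (1 / 132) (.leaf 63) (.leaf 64))) (.leaf 65)))) (.split 1 (1 / 396) (.split 0 16 (.split 2 (57043 / 100000) (.split 0 14 (.split 0 13 (.leaf 66) (.leaf 67)) (.split 1 (1 / 792) (.leaf 68) (.leaf 69))) (.split 2 (72309 / 100000) (.leaf 70) (.split 2 (11619 / 10000) (.leaf 71) (.leaf 74)))) (.split 0 24 (.split 2 (11619 / 10000) (.split 0 20 (.leaf 79) (.leaf 80)) (.leaf 90)) (.split 1 (1 / 792) (.split 2 (11619 / 10000) (.leaf 85) (.leaf 93)) (.split 2 (11619 / 10000) (.leaf 86) (.leaf 94))))) (.split 1 (1 / 198) (.split 0 16 (.split 2 (11619 / 10000) (.split 0 14 (.leaf 72) (.leaf 73)) (.leaf 75)) (.split 0 24 (.split 2 (11619 / 10000) (.leaf 81) (.leaf 91)) (.split 2 (11619 / 10000) (.leaf 87) (.leaf 95)))) (.split 0 16 (.split 1 (1 / 132) (.split 0 14 (.leaf 76) (.leaf 77)) (.leaf 78)) (.split 0 24 (.split 2 (11619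 / 10000) (.split 0 18 (.leaf 82) (.split 0 20 (.leaf 83) (.leaf 84))) (.leaf 92)) (.split 2 (11619 / 10000) (.split 1 (1 / 132) (.leaf 88) (.leaf 89)) (.leaf 96))))))))
  cutFar := (.split 0 (11 / 50) (.split 2 (11619 / 10000) (.split 0 (11 / 100) (.split 1 (1 / 8) (.leaf 0) (.split 0 (11 / 200) (.split 1 (11 / 32) (.split 1 (15 / 64) (.leaf 1) (.leaf 2)) (.split 1 (9 / 16) (.leaf 3) (.leaf 4))) (.leaf 5))) (.leaf 6)) (.leaf 7)) (.leaf 8))

theorem band_ok : band.ok = true := by decide +kernel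

theorem bulk_ok : ∀ R ∈ band.bulk, R.ok band.par band.fld = true := by
  simp only [band, List.mem_flatten, List.mem_cons, List.not_mem_nil, or_false]
  rintro R ⟨l, hl, hR⟩
  rcases hl with rfl | rfl | rfl | rfl | rfl | rfl | rfl | rfl | rfl | rfl | rfl | rfl | rfl | rfl | rfl | rfl | rfl | rfl | rfl | rfl | rfl | rfl | rfl | rfl | rfl
  all_goals first
    | exact rows000_list_ok R hR
    | exact rows001_list_ok R hR
    | exact rows002_list_ok R hR
    | exact rows003_list_ok R hR
    | exact rows004_list_ok R hR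
    | exact rows005_list_ok R hR
    | exact rows006_list_ok R hR
    | exact rows007_list_ok R hR
    | exact rows008_list_ok R hR
    | exact rows009_list_ok R hR
    | exact rows010_list_ok R hR
    | exact rows011_list_ok R hR
    | exact rows012_list_ok R hR
    | exact rows013_list_ok R hR
    | exact rows014_list_ok R hR
    | exact rows015_list_ok R hR
    | exact rows016_list_ok R hR
    | exact rows017_list_ok R hR
    | exact rows018_list_ok R hR
    | exact rows019_list_ok R hR
    | exact rows020_list_ok R hR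
    | exact rows021_list_ok R hR
    | exact rows022_list_ok R hR
    | exact rows023_list_ok R hR
    | exact rows024_list_ok R hR

theorem chart_ok : ∀ R ∈ band.chart, R.ok band.par band.fld = true := by
  simp only [band, List.mem_flatten, List.mem_cons, List.not_mem_nil, or_false]
  rintro R ⟨l, hl, hR⟩
  rcases hl with rfl | rfl | rfl | rfl | rfl | rfl | rfl | rfl | rfl
  all_goals first
    | exact chart000_list_ok R hR
    | exact chart001_list_ok R hR
    | exact chart002_list_ok R hR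
    | exact chart003_list_ok R hR
    | exact chart004_list_ok R hR
    | exact chart005_list_ok R hR
    | exact chart006_list_ok R hR
    | exact chart007_list_ok R hR
    | exact chart008_list_ok R hR

/-- The cell of the band. -/
theorem corCell_band {p : ℕ} (hp : 98 ≤ p) {lo hi : ℝ} (hlo : (band.w0 : ℝ) ≤ lo * ((p : ℝ) + 1))
    (hhi : hi * ((p : ℝ) + 1) ≤ band.w1) : CorCell p lo hi :=
  corCell_of_band band_ok bulk_ok chart_ok hp hlo hhi

end Vale.Agent.P237.Petty.Cor.Band.C
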