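import Vale.Agent.P237.Petty.Cor.Band.C.Chart000Box

/-!
# P237: some rows of the upper band, checked by the kernel
-/

set_option linter.style.longLine false

namespace Vale.Agent.P237.Petty.Cor.Band.C

/-- A piece, with multipliers fitted on the box of `B`. -/
def chart0p0 : Piece :=
  let B : Box := chart0box
  ⟨0, (1 / 5), (223607 / 500000), 1, 0, 0,
      (cornersFar B 1 [434668000000, 481030000000, 1071180000, 26931700000]),
      (cornersFar B 1 [109621000000, 115785000000, 79888500000, 89901900000]),
      [],
      [],
      [],
      [],
      [],
      [], 0⟩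

def chart0p0_ok : okPiece (okFar chart0box) par ⟨0, 0, 0⟩ false none
    (remPoly ofQ yV eV wV fld fld.atoms) chart0p0 = true := by decide +kernel

/-- A piece, with multipliers fitted on the box of `B`. -/
def chart0p1 : Piece :=
  let B : Box := chart0box
  ⟨(1 / 5), (2 / 5), (79057 / 125000), 1, 0, (38061 / 25000000),
      (cornersFar B 1 [439038000000, 531252000000, 1549380000, 45700400000]),
      (cornersFar B 1 [108670000000, 116077000000, 79518600000, 91492500000]),
      [],
      [],
      [],
      [],
      [],
      [], 0⟩

def chart0p1_ok : okPiece (okFar chart0box) par ⟨0, 0, 0⟩ false none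
    (remPoly ofQ yV eV wV fld fld.atoms) chart0p1 = true := by decide +kernel

end Vale.Agent.P237.Petty.Cor.Band.C
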