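import Vale.Agent.P237.Petty.Cor.Band.C.Par

/-!
# P237: some rows of the upper band, checked by the kernel
-/

set_option linter.style.longLine false

namespace Vale.Agent.P237.Petty.Cor.Band.C

/-- The box of a row. -/
def chart1box : Box := ⟨0, (11 / 200), (1 / 8), (15 / 64), (9 / 20), (11619 / 10000)⟩

end Vale.Agent.P237.Petty.Cor.Band.C
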