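import Vale.Agent.P237.Petty.Cor.Band.C.Chart001Box

/-!
# P237: some rows of the upper band, checked by the kernel
-/

set_option linter.style.longLine false

namespace Vale.Agent.P237.Petty.Cor.Band.C

/-- A piece, with multipliers fitted on the box of `B`. -/
def chart1p0 : Piece :=
  let B : Box := ⟨0, (11 / 200), (1 / 8), 1, (9 / 20), (11619 / 10000)⟩
  ⟨0, (1 / 5), (223607 / 500000), 1, 0, 0,
      (cornersFar B 2 [1237950000000, 488616000000, 581183000000, 85196700000]),
      (cornersFar B 1 [64058400000, 87249000000, 71541200000, 88153800000]),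
      [],
      [],
      [],
      [],
      [],
      [], 0⟩

def chart1p0_ok : okPiece (okFar chart1box) par ⟨0, 0, 0⟩ false none
    (remPoly ofQ yV eV wV fld fld.atoms) chart1p0 = true := by decide +kernel

/-- A piece, with multipliers fitted on the box of `B`. -/
def chart1p1 : Piece :=
  let B : Box := ⟨0, (11 / 200), (1 / 8), 1, (9 / 20), (11619 / 10000)⟩
  ⟨(1 / 5), (2 / 5), (79057 / 125000), 1, 0, (212693 / 500000),
      (cornersFar B 2 [184713000000, 461674000000, 111860000000, 128403000000]),
      (cornersFar B 1 [93879300000, 89874900000, 85474400000, 88460600000]),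
      [],
      [],
      [],
      [],
      [],
      (cornersFar B 2 [2233790000000, 3911350000000, 1869130000000, 6717290000000]), 0⟩

def chart1p1_ok : okPiece (okFar chart1box) par ⟨0, 0, 0⟩ false none
    (remPoly ofQ yV eV wV fld fld.atoms) chart1p1 = true := by decide +kernel

end Vale.Agent.P237.Petty.Cor.Band.C
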