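import Vale.Agent.P237.Petty.Cor.Band.C.Chart006Box

/-!
# P237: some rows of the upper band, checked by the kernel
-/

set_option linter.style.longLine false

namespace Vale.Agent.P237.Petty.Cor.Band.C

/-- A piece, with multipliers fitted on the box of `B`. -/
def chart6p2 : Piece :=
  let B : Box := chart6box
  ⟨(2 / 5), (7 / 10), (836661 / 1000000), 1, 0, (25741 / 20000),
      (cornersFar B 1 [35938200000, 150977000000, 54577900000, 151543000000]),
      (cornersFar B 1 [76804000000, 76189600000, 54712800000, 53154900000]),
      [],
      [],
      [],
      [],
      [],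
      (cornersFar B 2 [2305140000000, 12911600000000, 1244620000000, 20321700000000]), 0⟩

def chart6p2_ok : okPiece (okFar chart6box) par ⟨0, 0, 0⟩ false none
    (remPoly ofQ yV eV wV fld fld.atoms) chart6p2 = true := by decide +kernel

/-- A piece, with multipliers fitted on the box of `B`. -/
def chart6p3 : Piece :=
  let B : Box := chart6box
  ⟨(7 / 10), 1, 1, 1, 0, (11373 / 4000),
      (cornersFar B 1 [52571100000, 281514000000, 77470600000, 261373000000]),
      (cornersFar B 1 [76333100000, 71218800000, 54070400000, 49496700000]),
      [],
      [],
      [],
      [],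
      [],
      (cornersFar B 2 [6862690000000, 98405400000000, 3931620000000, 175313000000000]), 0⟩

def chart6p3_ok : okPiece (okFar chart6box) par ⟨0, 0, 0⟩ false none
    (remPoly ofQ yV eV wV fld fld.atoms) chart6p3 = true := by decide +kernel

end Vale.Agent.P237.Petty.Cor.Band.C
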