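import Vale.Agent.P237.Petty.Cor.Band.C.Chart006Box

/-!
# P237: some rows of the upper band, checked by the kernel
-/

set_option linter.style.longLine false

namespace Vale.Agent.P237.Petty.Cor.Band.C

/-- A piece, with multipliers fitted on the box of `B`. -/
def chart6p4 : Piece :=
  let B : Box := chart6box
  ⟨1, (21 / 20), (10247 / 10000), 1, 0, (5711 / 25000),
      (cornersFar B 1 [315763000000, 327128000000, 177576000000, 268199000000]),
      (cornersFar B 1 [68820200000, 69129900000, 51192900000, 49010100000]),
      [],
      [],
      [],
      [],
      [],
      (cornersFar B 2 [36211800000000, 3598480000000000, 191602000000000, 6684620000000000]), 0⟩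

def chart6p4_ok : okPiece (okFar chart6box) par ⟨0, 0, 0⟩ false none
    (remPoly ofQ yV eV wV fld fld.atoms) chart6p4 = true := by decide +kernel

/-- A piece, with multipliers fitted on the box of `B`. -/
def chart6p5 : Piece :=
  let B : Box := chart6box
  ⟨(21 / 20), (6 / 5), (21909 / 20000), (561 / 500), (115111 / 1000000), (114861 / 500000),
      (cornersFar B 0 [21791500, 910199000, 41855000, 1204410000]),
      (cornersFar B 2 [220964000, 99990500000, 885754000, 180860000000]),
      [],
      (cornersFar B 1 [9298860000, 5437230000, 13595000000, 6993640000]),
      [],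
      (cornersFar B 1 [11513500, 426310000, 17735200, 533558000]),
      [],
      (cornersFar B 2 [12438100000, 1221370000000, 27425900000, 4468560000000]), 0⟩

def chart6p5_ok : okPiece (okFar chart6box) par ⟨0, 0, 0⟩ false none
    (remPoly ofQ yV eV wV fld fld.atoms) chart6p5 = true := by decide +kernel

end Vale.Agent.P237.Petty.Cor.Band.C
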