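import Vale.Agent.P237.Petty.Cor.Band.C.Chart006Box

/-!
# P237: some rows of the upper band, checked by the kernel
-/

set_option linter.style.longLine false

namespace Vale.Agent.P237.Petty.Cor.Band.C

/-- A piece, with multipliers fitted on the box of `B`. -/
def chart6p6 : Piece :=
  let B : Box := chart6box
  ⟨(6 / 5), (3 / 2), (4899 / 4000), (671 / 500), (3677 / 12500), (554027 / 10000000),
      (cornersFar B 0 [45998500, 440809000, 113972000, 491353000]),
      (cornersFar B 2 [317181000, 55883900000, 804261000, 134893000000]),
      [],
      (cornersFar B 1 [9306590000, 7131720000, 13324000000, 9014600000]),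
      [],
      (cornersFar B 1 [46992300, 435118000, 103066000, 548484000]),
      [],
      (cornersFar B 2 [13111300000, 305184000000, 20265500000, 1071560000000]), 0⟩

def chart6p6_ok : okPiece (okFar chart6box) par ⟨0, 0, 0⟩ false none
    (remPoly ofQ yV eV wV fld fld.atoms) chart6p6 = true := by decide +kernel

/-- A piece, with multipliers fitted on the box of `B`. -/
def chart6p7 : Piece :=
  let B : Box := chart6box
  ⟨(3 / 2), (11 / 5), (37081 / 25000), (1817 / 1000), (119437 / 200000), (175347 / 25000000),
      (cornersFar B 0 [140592000, 170943000, 31496500, 111896000]),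
      (cornersFar B 2 [5630370000, 28075600000, 193433000, 73468400000]),
      [],
      (cornersFar B 1 [8997030000, 8151630000, 13115100000, 11143800000]),
      [],
      (cornersFar B 1 [363552000, 433630000, 518432000, 548290000]),
      [],
      (cornersFar B 2 [12405700000, 63196800000, 12504100000, 194351000000]), 0⟩

def chart6p7_ok : okPiece (okFar chart6box) par ⟨0, 0, 0⟩ false none
    (remPoly ofQ yV eV wV fld fld.atoms) chart6p7 = true := by decide +kernel

end Vale.Agent.P237.Petty.Cor.Band.C
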