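import Vale.Agent.P237.Petty.Cor.Band.C.Chart006Box

/-!
# P237: some rows of the upper band, checked by the kernel
-/

set_option linter.style.longLine false

namespace Vale.Agent.P237.Petty.Cor.Band.C

/-- A piece, with multipliers fitted on the box of `B`. -/
def chart6p8 : Piece :=
  let B : Box := chart6box
  ⟨(11 / 5), 4, 2, (1483 / 500), (108721 / 100000), (24011 / 125000),
      (cornersFar B 0 [229362000, 216053000, 262222000, 10799600]),
      (cornersFar B 2 [18037500000, 17013800000, 21451300000, 339408000]),
      [],
      (cornersFar B 1 [614252000, 586149000, 739122000, 12046000]),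
      (cornersFar B 1 [10934600000, 10940000000, 13596700000, 14578900000]),
      (cornersFar B 1 [306380000, 305326000, 399139000, 45858900]),
      (cornersFar B 1 [394195000, 397488000, 491732000, 529928000]),
      (cornersFar B 2 [132443000000, 130378000000, 131138000000, 91485000000]), 0⟩

def chart6p8_ok : okPiece (okFar chart6box) par ⟨0, 0, 0⟩ false none
    (remPoly ofQ yV eV wV fld fld.atoms) chart6p8 = true := by decide +kernel

/-- A piece, with multipliers fitted on the box of `B`. -/
def chart6p9 : Piece :=
  let B : Box := chart6box
  ⟨4, 8, (282843 / 100000), (5657 / 1000), (173289 / 100000), (177657 / 1000000),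
      (cornersFar B 0 [181350000, 171273000, 209087000, 11338400]),
      (cornersFar B 2 [22290500000, 20004300000, 26343400000, 468374000]),
      [],
      (cornersFar B 1 [763163000, 690784000, 901889000, 16219900]),
      (cornersFar B 1 [16955500000, 17135300000, 18997100000, 18942600000]),
      (cornersFar B 1 [231021000, 223304000, 296060000, 17400900]),
      (cornersFar B 1 [394854000, 397853000, 491188000, 523376000]),
      (cornersFar B 2 [96618500000, 91684400000, 94997400000, 52060500000]), 0⟩

def chart6p9_ok : okPiece (okFar chart6box) par ⟨0, 0, 0⟩ false none
    (remPoly ofQ yV eV wV fld fld.atoms) chart6p9 = true := by decide +kernel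

end Vale.Agent.P237.Petty.Cor.Band.C
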