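import Vale.Agent.P237.Petty.Cor.Band.C.Chart006Box

/-!
# P237: some rows of the upper band, checked by the kernel
-/

set_option linter.style.longLine false

namespace Vale.Agent.P237.Petty.Cor.Band.C

theorem chart6_big : (bigExprs par (remPoly ofQ yV eV wV fld fld.atoms)).all (okFar chart6box) = true := by decide +kernel

end Vale.Agent.P237.Petty.Cor.Band.C
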