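import Vale.Agent.P237.Petty.Cor.Band.C.Chart006a
import Vale.Agent.P237.Petty.Cor.Band.C.Chart006b
import Vale.Agent.P237.Petty.Cor.Band.C.Chart006c
import Vale.Agent.P237.Petty.Cor.Band.C.Chart006d
import Vale.Agent.P237.Petty.Cor.Band.C.Chart006e
import Vale.Agent.P237.Petty.Cor.Band.C.Chart006f

/-!
# P237: some rows of the upper band, checked by the kernel
-/

set_option linter.style.longLine false

namespace Vale.Agent.P237.Petty.Cor.Band.C

/-- A row. -/
def chart6 : ChartRow := ⟨chart6box, [chart6p0, chart6p1, chart6p2, chart6p3, chart6p4, chart6p5, chart6p6, chart6p7, chart6p8, chart6p9]⟩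

theorem chart6_ok : chart6.ok par fld = true :=
  ChartRow.ok_of (by decide +kernel)
    (List.forall_mem_cons.2 ⟨chart6p0_ok, List.forall_mem_cons.2 ⟨chart6p1_ok, List.forall_mem_cons.2 ⟨chart6p2_ok, List.forall_mem_cons.2 ⟨chart6p3_ok, List.forall_mem_cons.2 ⟨chart6p4_ok, List.forall_mem_cons.2 ⟨chart6p5_ok, List.forall_mem_cons.2 ⟨chart6p6_ok, List.forall_mem_cons.2 ⟨chart6p7_ok, List.forall_mem_cons.2 ⟨chart6p8_ok, List.forall_mem_cons.2 ⟨chart6p9_ok, List.forall_mem_nil _⟩⟩⟩⟩⟩⟩⟩⟩⟩⟩)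
    chart6_big

/-- The rows of this file. -/
def chart006_list : List ChartRow := [chart6]

theorem chart006_list_ok : ∀ R ∈ chart006_list, R.ok par fld = true := by
  simp [chart006_list, chart6_ok]

end Vale.Agent.P237.Petty.Cor.Band.C
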