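import Vale.Agent.P237.Petty.Cor.Band.C.Chart006Box

/-!
# P237: some rows of the upper band, checked by the kernel
-/

set_option linter.style.longLine false

namespace Vale.Agent.P237.Petty.Cor.Band.C

/-- A piece, with multipliers fitted on the box of `B`. -/
def chart6p0 : Piece :=
  let B : Box := chart6box
  ⟨0, (1 / 5), (223607 / 500000), 1, 0, 0,
      (cornersFar B 1 [277785000000, 92862800000, 58261400000, 62520900000]),
      (cornersFar B 1 [69666800000, 76500800000, 54301400000, 55441300000]),
      [],
      [],
      [],
      [],
      [],
      [], 0⟩

def chart6p0_ok : okPiece (okFar chart6box) par ⟨0, 0, 0⟩ false none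
    (remPoly ofQ yV eV wV fld fld.atoms) chart6p0 = true := by decide +kernel

/-- A piece, with multipliers fitted on the box of `B`. -/
def chart6p1 : Piece :=
  let B : Box := chart6box
  ⟨(1 / 5), (2 / 5), (79057 / 125000), 1, 0, (120207 / 100000),
      (cornersFar B 1 [29369800000, 114197000000, 60067700000, 102784000000]),
      (cornersFar B 1 [76991200000, 77464000000, 54497400000, 54948000000]),
      [],
      [],
      [],
      [],
      [],
      (cornersFar B 2 [1489570000000, 6969160000000, 803403000000, 9079390000000]), 0⟩

def chart6p1_ok : okPiece (okFar chart6box) par ⟨0, 0, 0⟩ false none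
    (remPoly ofQ yV eV wV fld fld.atoms) chart6p1 = true := by decide +kernel

end Vale.Agent.P237.Petty.Cor.Band.C
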