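import Vale.Agent.P237.Petty.Cor.Band.C.Chart007Box

/-!
# P237: some rows of the upper band, checked by the kernel
-/

set_option linter.style.longLine false

namespace Vale.Agent.P237.Petty.Cor.Band.C

/-- A piece, with multipliers fitted on the box of `B`. -/
def chart7p0 : Piece :=
  let B : Box := chart7box
  ⟨0, (1 / 5), (223607 / 500000), 1, 0, 0,
      (cornersFar B 1 [2289590000000, 370551000000, 63248900000, 65411300000]),
      (cornersFar B 1 [33628900000, 89852600000, 54565800000, 55596000000]),
      [],
      [],
      [],
      [],
      [],
      [], 0⟩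

def chart7p0_ok : okPiece (okFar chart7box) par ⟨0, 0, 0⟩ false none
    (remPoly ofQ yV eV wV fld fld.atoms) chart7p0 = true := by decide +kernel

/-- A piece, with multipliers fitted on the box of `B`. -/
def chart7p1 : Piece :=
  let B : Box := chart7box
  ⟨(1 / 5), (2 / 5), (79057 / 125000), 1, 0, (62917 / 1250000),
      (cornersFar B 1 [2326870000000, 347182000000, 54472400000, 53573500000]),
      (cornersFar B 1 [32484400000, 89481100000, 53603200000, 55444000000]),
      [],
      [],
      [],
      [],
      [],
      [], 0⟩

def chart7p1_ok : okPiece (okFar chart7box) par ⟨0, 0, 0⟩ false none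
    (remPoly ofQ yV eV wV fld fld.atoms) chart7p1 = true := by decide +kernel

end Vale.Agent.P237.Petty.Cor.Band.C
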