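import Vale.Agent.P237.Petty.Cor.Band.C.Par

/-!
# P237: some rows of the upper band, checked by the kernel
-/

set_option linter.style.longLine false

namespace Vale.Agent.P237.Petty.Cor.Band.C

/-- The box of a row. -/
def chart8box : Box := ⟨(11 / 50), (11 / 25), 0, 1, (9 / 20), 3⟩

end Vale.Agent.P237.Petty.Cor.Band.C
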