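import Vale.Agent.P237.Petty.Cor.Band.C.Chart008Box

/-!
# P237: some rows of the upper band, checked by the kernel
-/

set_option linter.style.longLine false

namespace Vale.Agent.P237.Petty.Cor.Band.C

/-- A piece, with multipliers fitted on the box of `B`. -/
def chart8p0 : Piece :=
  let B : Box := chart8box
  ⟨0, (1 / 5), (223607 / 500000), 1, 0, 0,
      (cornersFar B 1 [222872000000, 34383800000, 16490200000, 11486700000]),
      (cornersFar B 1 [49512400000, 57102100000, 9547630000, 19687100000]),
      [],
      [],
      [],
      [],
      [],
      [], 0⟩

theorem chart8p0_ok : okPiece (okFar chart8box) par ⟨0, 0, 0⟩ false none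
    (remPoly ofQ yV eV wV fld fld.atoms) chart8p0 = true := by decide +kernel

end Vale.Agent.P237.Petty.Cor.Band.C
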