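import Vale.Agent.P237.Petty.Cor.Band.Spec

/-!
# P237: the constants of the upper band of small values
-/

namespace Vale.Agent.P237.Petty.Cor.Band.C

/-- The constants. -/
def par : Par := ⟨(39 / 250), (141 / 100), (16 / 25), (-23 / 25), (-1 / 25), (203 / 200), (-177 / 500), (83 / 100), (169 / 250), (11 / 1000)⟩

/-- The spline. -/
def fld : Fld :=
  ⟨747 / 1000, 371 / 100, [
    ⟨0, 0, ⟨(-997019 / 100000000), (-34220269 / 50000000), (-58126451 / 10000000), (32864967 / 2000000)⟩⟩,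
    ⟨0, 1, ⟨(-157151 / 6250000), (-7106489 / 25000000), (67018037 / 5000000), (-29579523 / 1000000)⟩⟩,
    ⟨0, 2, ⟨(408669 / 6250000), (40442789 / 300000000), (-666977221 / 30000000), (1538654273 / 30000000)⟩⟩,
    ⟨0, 3, ⟨(206661 / 100000000), (-15037389 / 100000000), (901618627 / 75000000), (-1529813633 / 50000000)⟩⟩,
    ⟨0, 4, ⟨(448979 / 125000000), (-89614199 / 10500000000), (-2902393 / 150000000), (2094271 / 52500000)⟩⟩,
    ⟨(1 / 2), 2, ⟨(276609 / 100000000), (3566983 / 50000000), (4651583 / 5000000), (-42472331 / 10000000)⟩⟩,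
    ⟨(1 / 2), 3, ⟨(-179207 / 4000000), (2945047 / 20000000), (-118332767 / 10000000), (164883567 / 5000000)⟩⟩,
    ⟨1, 2, ⟨(-187879 / 25000000), (2586603 / 100000000), (6518997 / 10000000), (-8566869 / 1000000)⟩⟩,
    ⟨1, 3, ⟨(-380863 / 20000000), (269663 / 20000000), (9274613 / 2500000), (2528299 / 1000000)⟩⟩,
    ⟨(3 / 2), 2, ⟨(-268253 / 12500000), (2329451 / 50000000), (32494467 / 5000000), (-19888193 / 2000000)⟩⟩,
    ⟨(3 / 2), 3, ⟨(917567 / 10000000), (-52967 / 5000000), (-141920829 / 10000000), (714167 / 62500)⟩⟩,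
    ⟨2, 2, ⟨(-1873687 / 100000000), (9016841 / 100000000), (49785861 / 10000000), (-44009529 / 2500000)⟩⟩,
    ⟨2, 3, ⟨(-3790891 / 50000000), (10350523 / 100000000), (52868413 / 5000000), (-83763767 / 5000000)⟩⟩,
    ⟨(5 / 2), 2, ⟨(47451 / 1562500), (-6067863 / 100000000), 0, 0⟩⟩,
    ⟨(5 / 2), 3, ⟨(44163 / 6250000), (2087913 / 100000000), 0, 0⟩⟩,
    ⟨(7 / 2), 2, ⟨(57657 / 2500000), (-8997251 / 100000000), 0, 0⟩⟩,
    ⟨(7 / 2), 3, ⟨(-355539 / 12500000), (859941 / 25000000), 0, 0⟩⟩,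
    ⟨6, 2, ⟨(399003 / 20000000), (-4517151 / 100000000), 0, 0⟩⟩,
    ⟨6, 3, ⟨(-3281711 / 100000000), (1538937 / 20000000), 0, 0⟩⟩,
    ⟨12, 2, ⟨(-86083901 / 100000000), (192418143 / 100000000), 0, 0⟩⟩,
    ⟨12, 3, ⟨(9241687 / 50000000), (-44449257 / 100000000), 0, 0⟩⟩]⟩

end Vale.Agent.P237.Petty.Cor.Band.C
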