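import Vale.Agent.P237.Petty.Cor.Band.C.Par

/-!
# P237: some rows of the upper band, checked by the kernel
-/

set_option linter.style.longLine false

namespace Vale.Agent.P237.Petty.Cor.Band.C

/-- A row. -/
def rows36 : Row :=
  let B : Box := ⟨(9 / 4), (5 / 2), 0, (1 / 198), (9 / 20), (11619 / 10000)⟩
  ⟨B, .ser (10932233 / 50000000) (11172957 / 12500000) (5063939 / 5000000), .near (99171 / 10000), (52911 / 50000), [
    ⟨0, 1, 1, 1, 0, 0,
      (corners B [172345, 228393, 264178000, 458542000, 196850000, 337497000, 1712920, 428876000]),
      (corners B [229973000, 111345]),
      (corners B [454865000, 173520000]),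
      [],
      [],
      [],
      [],
      (corners B [200475, 537547]), 0⟩,
    ⟨1, (52911 / 50000), (10287 / 10000), 1, 0, (210461 / 100000000),
      (corners B [6968390, 17654200, 899083000, 674656000, 667331000, 618114000, 3338350000, 2807570000]),
      (corners B [2219480, 3639890]),
      (corners B [126903000, 8248670]),
      (corners B [439966000, 637925000]),
      [],
      [],
      [],
      (corners B [89220200000, 2125390000]), (99171 / 10000)⟩]⟩

def rows36_ok : rows36.ok par fld = true := by decide +kernel

/-- A row. -/
def rows37 : Row :=
  let B : Box := ⟨(9 / 4), (5 / 2), (1 / 198), (1 / 99), (9 / 20), (11619 / 10000)⟩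
  ⟨B, .ser (2554057 / 12500000) (18004021 / 20000000) (2564767 / 2500000), .near (102693 / 10000), (22411 / 20000), [
    ⟨0, 1, 1, 1, 0, 0,
      (corners B [266613, 436978, 207520000, 405934000, 152269000, 295581000, 950397, 23622800]),
      (corners B [344901000, 240488]),
      (corners B [633480000, 272445000]),
      [],
      [],
      [],
      [],
      (corners B [254962, 883381]), 0⟩,
    ⟨1, (22411 / 20000), (105857 / 100000), 1, 0, (177 / 125000),
      (corners B [11020200, 10641100, 709166000, 801362000, 668086000, 652009000, 2442680000, 2785960000]),
      (corners B [13269800, 2702260]),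
      (corners B [385064000, 33775600]),
      (corners B [27550100, 900270000]),
      [],
      [],
      [],
      (corners B [61405100000, 960491000]), (102693 / 10000)⟩]⟩

def rows37_ok : rows37.ok par fld = true := by decide +kernel

/-- A row. -/
def rows38 : Row :=
  let B : Box := ⟨(9 / 4), (5 / 2), 0, (1 / 99), (11619 / 10000), 3⟩
  ⟨B, .ser (2554057 / 12500000) (18004021 / 20000000) (2564767 / 2500000), .near (104527 / 10000), (65839 / 50000), [
    ⟨0, 1, 1, 1, 0, 0,
      (corners B [31148, 93075, 436486000, 656959000, 508767000, 743466000, 240942000, 1364910000]),
      (corners B [66172, 35048]),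
      (corners B [253052000, 51501900]),
      [],
      [],
      [],
      [],
      (corners B [49813, 332035]), 0⟩,
    ⟨1, (6 / 5), (21909 / 20000), 1, 0, (762999 / 10000000000),
      (corners B [2235030, 8071570, 797130000, 882173000, 1380320000, 1330490000, 5656320000, 5897850000]),
      (corners B [547473, 1428690]),
      (corners B [47633800, 3262440]),
      (corners B [300696000, 256583000]),
      [],
      [],
      [],
      (corners B [19387500000, 190025000]), (104527 / 10000)⟩,
    ⟨(6 / 5), (65839 / 50000), (3586 / 3125), (1257 / 1000), (114363 / 500000), (333483 / 10000000000),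
      (corners B [2198360000, 378844000, 2392030000, 326217000, 2375210000, 21645400, 358391000, 166261]),
      (corners B [38379300, 145902]),
      (corners B [107220000000, 9870620000]),
      (corners B [85248900, 95883]),
      (corners B [3628180, 16048]),
      (corners B [709790000, 1091870]),
      (corners B [54660300, 183659]),
      (corners B [35493200000, 5596230000]), 0⟩]⟩

def rows38_ok : rows38.ok par fld = true := by decide +kernel

/-- A row. -/
def rows39 : Row :=
  let B : Box := ⟨(5 / 2), (21 / 8), 0, (1 / 198), (9 / 20), 3⟩
  ⟨B, .ser (31514171 / 1000000000) (48403717 / 50000000) (5067179 / 5000000), .near (6752 / 625), (116371 / 100000), [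
    ⟨0, 1, 1, 1, 0, 0,
      (corners B [715781, 3973610, 165699000, 310403000, 253362000, 623353000, 98927900, 1088590000]),
      (corners B [685768000, 1419680]),
      (corners B [310078000, 46845500]),
      [],
      [],
      [],
      [],
      (corners B [909732, 13791700]), 0⟩,
    ⟨1, (116371 / 100000), (26969 / 25000), 1, 0, (209287 / 250000000),
      (corners B [10831200, 39937700, 358424000, 356813000, 881799000, 946675000, 2952700000, 1755710000]),
      (corners B [258993000, 6465400]),
      (corners B [212398000, 2897460]),
      (corners B [53666800, 256138000]),
      [],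
      [],
      [],
      (corners B [35488200000, 1333620000]), (6752 / 625)⟩]⟩

def rows39_ok : rows39.ok par fld = true := by decide +kernel

/-- The rows of this file. -/
def rows009_list : List Row := [rows36, rows37, rows38, rows39]

theorem rows009_list_ok : ∀ R ∈ rows009_list, R.ok par fld = true := by
  simp [rows009_list, rows36_ok, rows37_ok, rows38_ok, rows39_ok]

end Vale.Agent.P237.Petty.Cor.Band.C
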